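import Vale.Agent.P337.CH.MR
import Vale.Agent.P337.DDefs

/-!
The algebraic formulas of the proof preserve the class `MR`.
-/

namespace Vale.Agent.P337

open Vale.Agent.Lib.PolyTime Finset MvPolynomial

variable {α β : Type*} [Enc α] [Enc β] {P : Type} [Enc P]
  {R : α → Type} [∀ a, CommRing (R a)] [∀ a, PRing P (R a)] {D : α → β → Prop}

/-- Families depending on the instance only. -/
abbrev MR0 (F : (a : α) → R a) : Prop := MR (fun _ (_ : Unit) => True) (fun a _ => F a)

/-- Families depending on the instance and a number. -/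
abbrev MR1 (F : (a : α) → ℕ → R a) : Prop := MR (fun _ (_ : ℕ) => True) F

theorem MR0.inst {F : (a : α) → R a} (hF : MR0 F) : MR D (fun a _ => F a) :=
  MR.reindex hF (fun _ _ => ()) (by fun_prop) fun _ _ _ => trivial

theorem MR1.at {F : (a : α) → ℕ → R a} (hF : MR1 F) {i : α → β → ℕ}
    (hi : CHF (fun x : α × β => i x.1 x.2)) : MR D (fun a b => F a (i a b)) :=
  MR.reindex hF i hi fun _ _ _ => trivial

/-- Extension by zero of a family indexed by `Fin n`. -/
def ext {n : ℕ} {S : Type*} [Zero S] (r : Fin n → S) (i : ℕ) : S :=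
  if h : i < n then r ⟨i, h⟩ else 0

theorem ext_val {n : ℕ} {S : Type*} [Zero S] (r : Fin n → S) (i : Fin n) : ext r i = r i := by
  simp [ext]

theorem XN_val {n : ℕ} {S : Type*} [CommRing S] (i : Fin n) : XN n S i = X i := by simp [XN]

/-- To prove that an extended family is `MR` one may restrict to the indices below `n`. -/
theorem MR1_ext {n : α → ℕ} (hn : CHF n) {r : (a : α) → Fin (n a) → R a}
    (F : (a : α) → ℕ → R a) (hF : MR (fun a (i : ℕ) => i < n a) F)
    (h : ∀ a (i : Fin (n a)), r a i = F a i) : MR1 (fun a => ext (r a)) :=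
  (MR.ite (D := fun _ _ => True) (q := fun a (i : ℕ) => i < n a) (inst := fun _ _ => inferInstance)
    (by fun_prop) (hF.mono fun _ _ h => h.2) MR.zero).congr' fun a i _ => by
      unfold ext
      split_ifs with hi
      · exact (h a ⟨i, hi⟩).symm
      · rfl

section Univariate

variable {N : α → ℕ} {p : (a : α) → β → ℕ → R a}

theorem MR_newtonL (hN : CHF N)
    (hp : MR (fun a (x : β × ℕ) => D a x.1 ∧ x.2 ≤ N a) (fun a x => p a x.1 x.2)) :
    MR (R := fun a => Polynomial (R a)) D (fun a b => newtonL (N a) (p a b)) := by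
  unfold newtonL
  refine MR.sum_range (by fun_prop) (MR.mul (MR.polyC (MR.mul (MR.mul
    (MR.neg_one_pow (by fun_prop)) (MR.natCast ?_)) ?_))
    (MR.pow MR.polyX (by fun_prop) (EB.of_le N hN fun a x hx => hx.2)))
  · exact (MC.prod_range (m := fun a _ => N a) (by fun_prop)
      (F := fun _ (x : β × ℕ) j => ((if j = x.2 then 1 else j + 1 : ℕ) : ℤ))
      (MC.natCast (by fun_prop))).congr' fun _ _ _ => (Nat.cast_prod _ _).symm
  · exact hp.reindex (fun _ (x : β × ℕ) => (x.1, x.2 + 1)) (by fun_prop) fun a x hx => hx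

theorem MR_newtonE (hN : CHF N)
    (hp : MR (fun a (x : β × ℕ) => D a x.1 ∧ x.2 ≤ N a) (fun a x => p a x.1 x.2)) :
    MR (R := fun a => Polynomial (R a)) D (fun a b => newtonE (N a) (p a b)) := by
  unfold newtonE
  refine MR.sum_range (by fun_prop) (MR.mul (MR.polyC (MR.natCast ?_))
    (MR.pow ((MR_newtonL hN hp).weak fun _ _ h => h.1) (by fun_prop)
      (EB.of_le (fun a => N a + 1) (by fun_prop) fun a x hx => hx.2.le)))
  exact (((MC.factorial (k := fun a _ => N a) (by fun_prop)).pow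
    (k := fun a (x : β × ℕ) => N a - x.2) (by fun_prop)).mul
    (MC.descFactorial (k := fun a _ => N a) (l := fun a (x : β × ℕ) => N a - x.2) (by fun_prop)
      (by fun_prop))).congr' fun _ _ _ => by push_cast; rfl

variable {B m : α → ℕ}

theorem MR_WW (hB : CHF B) {u : (a : α) → β → R a} (hu : MR D u) :
    MR D (fun a b => WW (B a) (u a b)) := by
  unfold WW
  exact MR.prod_range (by fun_prop) (EB.of_chf (by fun_prop))
    (MR.add (hu.weak fun _ _ h => h.1) (MR.two_pow (by fun_prop)))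

theorem MR_GG (hB : CHF B) (hm : CHF m) {u : (a : α) → β → ℕ → R a}
    (hu : MR (fun a (x : β × ℕ) => D a x.1 ∧ x.2 < m a) (fun a x => u a x.1 x.2)) :
    MR D (fun a b => GG (B a) (m a) (u a b)) := by
  unfold GG
  have hu' : MR (fun a (y : (β × ℕ) × ℕ) => D a y.1.1 ∧ y.2 < m a) (fun a y => u a y.1.1 y.2) :=
    hu.reindex (fun _ (y : (β × ℕ) × ℕ) => (y.1.1, y.2)) (by fun_prop) fun _ _ h => h
  refine MR.sub (MR.sum_range (by fun_prop) (MR.prod_range (by fun_prop) (EB.of_chf hm)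
    (MR.pow' (MR_WW hB (MR.ite (by fun_prop) (MR.neg ?_) ?_)) (by fun_prop))))
    (MR.prod_range (by fun_prop) (EB.of_chf hm) (MR.pow' (MR_WW hB hu) (by fun_prop)))
  · exact hu'.mono fun _ _ h => ⟨h.1.1.1, h.1.2⟩
  · exact hu'.mono fun _ _ h => ⟨h.1.1.1, h.1.2⟩

theorem MR_UU {L : (a : α) → R a} (hL : MR0 L) {w : (a : α) → ℕ → R a} (hw : MR1 w)
    {c : α → β → ℕ} (hc : CHF (fun x : α × β => c x.1 x.2)) :
    MR D (fun a b => UU (L a) (w a) (c a b)) := by
  unfold UU
  exact MR.mul (MR.neg_one_pow hc) (MR.sub (MR.mul hL.inst (MR.mul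
    (MR.neg_one_pow (by fun_prop)) (hw.at (by fun_prop)))) MR.one)

theorem MR_GC (hB : CHF B) (hm : CHF m) (hmb : PBd m) (hN : CHF N) {q : α → ℕ} (hq : CHF q)
    {L : (a : α) → R a} (hL : MR0 L) {w : (a : α) → ℕ → R a} (hw : MR1 w)
    {c z : α → β → ℕ} (hc : CHF (fun x : α × β => c x.1 x.2))
    (hz : CHF (fun x : α × β => z x.1 x.2)) :
    MR D (fun a b => GC (B a) (m a) (N a) (q a) (z a b) (c a b) (L a) (w a)) := by
  unfold GC
  have hz' : CHF (fun x : α × β × ℕ => z x.1 x.2.1) :=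
    hz.comp (f := fun x : α × β × ℕ => (x.1, x.2.1)) (by fun_prop)
  refine MR.add (MR.mul (MR.natCast' (by fun_prop)) (MR_GG hB hm ?_)) (MR.natCast' (by fun_prop))
  exact (MR_UU hL hw (c := fun a (x : β × ℕ) => q a * z a x.1 / q a ^ min x.2 (m a) % q a)
    (by fun_prop)).congr' fun a x hx => by rw [min_eq_left hx.2.le]

end Univariate

section Multivariate

variable {n e K : α → ℕ} {r : (a : α) → Fin (n a) → MvPolynomial (Fin (n a)) (R a)}
  {g : (a : α) → β → MvPolynomial (Fin (n a)) (R a)}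

theorem MR_XN (hn : CHF n) :
    MR1 (R := fun a => MvPolynomial (Fin (n a)) (R a)) (fun a i => XN (n a) (R a) i) :=
  MR1_ext (R := fun a => MvPolynomial (Fin (n a)) (R a)) hn (r := fun _ i => X i)
    (fun a i => XN (n a) (R a) i)
    (MR.mvX (fun _ i => i) (by fun_prop) fun a i hi => ⟨⟨i, hi⟩, rfl, XN_val ⟨i, hi⟩⟩)
    fun _ i => (XN_val i).symm

theorem MR_geo (hn : CHF n) (he : CHF e) (hK : CHF K)
    (hr : MR1 (R := fun a => MvPolynomial (Fin (n a)) (R a)) fun a => ext (r a)) :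
    MR0 (R := fun a => MvPolynomial (Fin (n a)) (R a))
      (fun a => ∏ i, geo (e a) (K a) (r a) i) := by
  refine MR.prod_fin hn (fun a _ i => ∑ k ∈ range (K a + 1),
    ext (r a) i ^ k * (XN (n a) (R a) i ^ e a) ^ (K a - k)) ?_ fun a _ _ i => by
      rw [ext_val, XN_val, geo]
  exact MR.sum_range (by fun_prop) (MR.mul (MR.pow (hr.at (by fun_prop)) (by fun_prop)
    (EB.of_le (fun a => K a + 1) (by fun_prop) fun _ _ h => h.2.le))
    (MR.pow (MR.pow' ((MR_XN hn).at (by fun_prop)) he) (by fun_prop)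
      (EB.of_le K hK fun _ _ _ => Nat.sub_le _ _)))

theorem MR_jac (hn : CHF n) (hnb : PBd n) (he : CHF e)
    (hr : MR1 (R := fun a => MvPolynomial (Fin (n a)) (R a)) fun a => ext (r a)) :
    MR0 (R := fun a => MvPolynomial (Fin (n a)) (R a)) (fun a => jac (e a) (r a)) := by
  unfold jac
  refine MR.det hn hnb (fun a _ i j =>
    ext (fun j => pderiv j (XN (n a) (R a) i ^ e a - ext (r a) i)) j) ?_ fun a _ _ i j => by
      rw [ext_val, ext_val, XN_val, Matrix.of_apply, sys]
  exact MR.pderiv hn hnb (H := fun a (x : Unit × ℕ × ℕ) =>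
    XN (n a) (R a) x.2.1 ^ e a - ext (r a) x.2.1)
    (MR.sub (MR.pow' ((MR_XN hn).at (by fun_prop)) he) (hr.at (by fun_prop)))
    (fun _ x => x.2.2) (by fun_prop) fun a x hx => ⟨⟨x.2.2, hx.2.2⟩, rfl, ext_val _ ⟨_, hx.2.2⟩⟩

theorem MR_tauK (hn : CHF n) (hnb : PBd n) (he : CHF e) (hK : CHF K)
    (hr : MR1 (R := fun a => MvPolynomial (Fin (n a)) (R a)) fun a => ext (r a))
    (hg : MR (R := fun a => MvPolynomial (Fin (n a)) (R a)) D g) :
    MR D (fun a b => tauK (e a) (K a) (r a) (g a b)) := by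
  unfold tauK lamK
  exact MR.mvCoeff hn hnb (MR.mul (MR.mul hg (MR_jac hn hnb he hr).inst)
    (MR_geo hn he hK hr).inst) (fun a _ _ => e a * K a + (e a - 1)) (by fun_prop)
    fun _ _ _ _ => rfl

theorem MR_EE (hn : CHF n) (hnb : PBd n) (he : CHF e) (hK : CHF K)
    (hr : MR1 (R := fun a => MvPolynomial (Fin (n a)) (R a)) fun a => ext (r a))
    (hg : MR (R := fun a => MvPolynomial (Fin (n a)) (R a)) D g) {k : α → β → ℕ}
    (hk : CHF (fun x : α × β => k x.1 x.2)) :
    MR D (fun a b => EE (e a) (K a) (r a) (g a b) (k a b)) := by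
  unfold EE
  simp only [Fintype.card_fin]
  exact MR.polyCoeff (MR_newtonE (by fun_prop) (MR_tauK hn hnb he hK hr
    (MR.pow (hg.weak fun _ _ h => h.1) (by fun_prop)
      (EB.of_le (fun a => e a ^ n a) (by fun_prop) fun _ _ h => h.2)))) hk

theorem MR_vv (hn : CHF n) (hnb : PBd n) (he : CHF e) (hK : CHF K)
    (hr : MR1 (R := fun a => MvPolynomial (Fin (n a)) (R a)) fun a => ext (r a))
    (hg : MR (R := fun a => MvPolynomial (Fin (n a)) (R a)) D g) {k : α → β → ℕ}
    (hk : CHF (fun x : α × β => k x.1 x.2)) :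
    MR (R := fun a => MvPolynomial (Fin (n a)) (R a)) D
      (fun a b => vv (e a) (K a) (r a) (g a b) (k a b)) := by
  unfold vv
  simp only [Fintype.card_fin]
  have hk' : CHF (fun x : α × β × ℕ => k x.1 x.2.1) :=
    hk.comp (f := fun x : α × β × ℕ => (x.1, x.2.1)) (by fun_prop)
  exact MR.sum_range (by fun_prop) (MR.mul (MR.mvC (MR.mul (MR.mul (MR.neg_one_pow (by fun_prop))
    (MR_EE hn hnb he hK hr (hg.weak fun _ _ h => h.1) (by fun_prop)))
    (MR.natCast (MC.descFactorial (by fun_prop) hk'))))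
    (MR.pow (hg.weak fun _ _ h => h.1) (by fun_prop)
      (EB.of_le (fun a => e a ^ n a) (by fun_prop) fun _ _ _ => by omega)))

theorem MR_base (hn : CHF n) (hnb : PBd n) (he : CHF e) (hK : CHF K)
    (hr : MR1 (R := fun a => MvPolynomial (Fin (n a)) (R a)) fun a => ext (r a))
    {h0 : (a : α) → MvPolynomial (Fin (n a)) (R a)}
    (hh0 : MR0 (R := fun a => MvPolynomial (Fin (n a)) (R a)) h0) :
    MR1 (R := fun a => MvPolynomial (Fin (n a)) (R a))
      (fun a => base (e a) (K a) (r a) (h0 a)) := by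
  unfold base
  exact MR.ite (by fun_prop) hh0.inst
    (MR_vv hn hnb he hK hr ((MR_XN hn).at (by fun_prop)) (by fun_prop))

variable {t : (a : α) → R a} {Q : (a : α) → MvPolynomial (Fin (n a)) (R a)}

theorem MR_rr (hn : CHF n) (hnb : PBd n) (ht : MR0 t)
    (hQ : MR0 (R := fun a => MvPolynomial (Fin (n a)) (R a)) Q) :
    MR1 (R := fun a => MvPolynomial (Fin (n a)) (R a)) fun a => ext (rr (t a) (Q a)) :=
  MR1_ext (R := fun a => MvPolynomial (Fin (n a)) (R a)) hn
    (fun a i => 1 - C (t a) * ext (fun i => pderiv i (Q a)) i)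
    (MR.sub MR.one (MR.mul (MR.mvC ht.inst) (MR.pderiv hn hnb (H := fun a _ => Q a) hQ.inst
      (fun _ i => i) (by fun_prop) fun _ i hi => ⟨⟨i, hi⟩, rfl, ext_val _ ⟨i, hi⟩⟩)))
    fun a i => by rw [ext_val, rr]

theorem MR_hh (hn : CHF n) (he : CHF e) (ht : MR0 t)
    (hQ : MR0 (R := fun a => MvPolynomial (Fin (n a)) (R a)) Q) :
    MR0 (R := fun a => MvPolynomial (Fin (n a)) (R a)) fun a => hh (e a) (t a) (Q a) := by
  unfold hh NN
  refine MR.add (MR.sum_fin hn (fun a _ i => XN (n a) (R a) i ^ (e a + 1) -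
    C ((e a : R a) + 1) * XN (n a) (R a) i + C (e a : R a)) ?_ fun a _ _ i => by rw [XN_val])
    (MR.mul (MR.mvC (MR.mul (MR.add (MR.natCast' (by fun_prop)) MR.one) ht)) hQ)
  exact MR.add (MR.sub (MR.pow' ((MR_XN hn).at (by fun_prop)) (by fun_prop))
    (MR.mul (MR.mvC (MR.add (MR.natCast' (by fun_prop)) MR.one)) ((MR_XN hn).at (by fun_prop))))
    (MR.mvC (MR.natCast' (by fun_prop)))

/-- Extension of scalars from the integers. -/
theorem MR_map_int {F : (a : α) → β → MvPolynomial (Fin (n a)) ℤ}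
    (hF : MR (R := fun a => MvPolynomial (Fin (n a)) ℤ) D F) (φ : (a : α) → ℤ →+* R a) :
    MR (R := fun a => MvPolynomial (Fin (n a)) (R a)) D (fun a b => map (φ a) (F a b)) := by
  obtain ⟨h1, M, hM, h2⟩ := hF
  refine ⟨(h1.comp (u := fun a => a) (v := fun _ (x : β × List ℕ × P) => (x.1, x.2.1, ()))
    CHF.id (by fun_prop)).congr' fun a x _ => ?_, M, hM, fun a b hab =>
      ⟨(totalDegree_map_le' _ _).trans (h2 a b hab).1, fun k => ?_⟩⟩
  · change eval₂ _ _ _ = eval₂ _ _ _
    rw [eval₂_map]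
    congr 1
    exact RingHom.ext_int _ _
  · rw [coeff_map, eq_intCast]
    exact PRing.dg_intCast' _ _

end Multivariate

end Vale.Agent.P337
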