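import Vale.Agent.Lib.PolyTime.Official
import Vale.Agent.Lib.PolyTime.Lists2
import Vale.Agent.Lib.PolyTime.Lists3
import Vale.Agent.Lib.PolyTime.Bitwise
import Vale.Agent.Lib.PolyTime.NatArith2
import Vale.Agent.Lib.PCP.PT.Fin
import Vale.Agent.P338.R3.H900.EncInt

/-!
Threshold normal form of `PP A`, closure of the counting hierarchy under joins and polynomial time
Turing reductions.
-/

namespace Vale.Agent.P337

open Vale.Agent.Lib.PolyTime Finset

variable {A B : Set Word}

/-! ### Words of fixed length and numbers -/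

theorem val_inj_of_length : ∀ {r r' : Word}, r.length = r'.length → val r = val r' → r = r'
  | [], [], _, _ => rfl
  | [], _ :: _, h, _ => by simp at h
  | _ :: _, [], h, _ => by simp at h
  | b :: r, b' :: r', h, h' => by
    simp only [val_cons] at h'
    have hb : b = b' := by cases b <;> cases b' <;> simp at h' ⊢ <;> omega
    subst hb
    rw [val_inj_of_length (r := r) (r' := r') (by simpa using h) (by omega)]

theorem val_append_false (r : Word) (k : ℕ) : val (r ++ List.replicate k false) = val r := by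
  induction r with
  | nil =>
    induction k with
    | zero => rfl
    | succ k ih => simpa [List.replicate_succ] using ih
  | cons b r ih => simp [ih]

/-- The word of length `q` with value `s`. -/
def padW (q s : ℕ) : Word := (s.bits ++ List.replicate q false).take q

theorem length_padW (q s : ℕ) : (padW q s).length = q := by simp [padW]

theorem val_padW {q s : ℕ} (h : s < 2 ^ q) : val (padW q s) = s := by
  have h1 : s.bits.length ≤ q := by
    rw [Nat.size_eq_bits_len]
    exact Nat.size_le.2 h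
  have : padW q s = s.bits ++ List.replicate (q - s.bits.length) false := by
    unfold padW
    rw [List.take_append, List.take_of_length_le h1, List.take_replicate]
    simp
  rw [this, val_append_false, val_bits]

theorem padW_val {q : ℕ} {r : Word} (h : r.length = q) : padW q (val r) = r :=
  val_inj_of_length (by rw [length_padW, h]) (val_padW (h ▸ val_lt r))

theorem ncard_words (q : ℕ) (p : Word → Prop) [DecidablePred p] :
    {r : Word | r.length = q ∧ p r}.ncard = ((range (2 ^ q)).filter fun s => p (padW q s)).card := by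
  rw [← Set.ncard_coe_finset]
  refine Set.ncard_congr (fun r _ => val r) ?_ ?_ ?_
  · rintro r ⟨h1, h2⟩
    simp only [coe_filter, mem_range, Set.mem_ofPred_eq]
    exact ⟨h1 ▸ val_lt r, by rwa [padW_val h1]⟩
  · rintro r r' ⟨h1, _⟩ ⟨h2, _⟩ h
    exact val_inj_of_length (h1.trans h2.symm) h
  · intro s hs
    simp only [coe_filter, mem_range, Set.mem_ofPred_eq] at hs
    exact ⟨padW q s, ⟨length_padW q s, hs.2⟩, val_padW hs.1⟩

/-! ### Raw words in the typed layer -/

variable {α β γ : Type*} [Enc α] [Enc β] [Enc γ]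

theorem PT_toRaw {f : α → β} (hf : PT A f) : PT A (fun a => Raw.mk (enc (f a))) := by
  obtain ⟨F, hF, hF'⟩ := hf
  exact ⟨F, hF, fun a => hF' a⟩

theorem PT_ofFP {F : Word → Word} (hF : FP A F) {f : α → Raw} (hf : PT A f) :
    PT A (fun a => Raw.mk (F (f a).w)) := by
  obtain ⟨G, hG, hG'⟩ := hf
  exact ⟨_, hF.comp hG, fun a => by rw [hG']; rfl⟩

theorem PT_rawAppend {f g : α → Raw} (hf : PT A f) (hg : PT A g) :
    PT A (fun a => Raw.mk ((f a).w ++ (g a).w)) := by
  obtain ⟨F, hF, hF'⟩ := hf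
  obtain ⟨G, hG, hG'⟩ := hg
  exact ⟨_, hF.append hG, fun a => by rw [hF', hG']; rfl⟩

theorem PT_padW {q s : α → ℕ} (hq : PT A q) (hqb : PBd q) (hs : PT A s) :
    PT A (fun a => Raw.mk (padW (q a) (s a))) :=
  PT.rawTake (PT_rawAppend (PT.rawBits hs)
    (PT.rawOfList (PT.replicate hq hqb (PT.const false)))) hq

theorem FP_of_PT_raw {f : Raw → Raw} (hf : PT A f) : FP A (fun w => (f ⟨w⟩).w) := by
  obtain ⟨F, hF, hF'⟩ := hf
  exact hF.congr fun w => hF' ⟨w⟩

open Classical in
theorem FP_chi_of_PT {L : Set Word} (h : PT A (fun w : Raw => decide (w.w ∈ L))) :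
    FP A (chi L) := by
  obtain ⟨F, hF, hF'⟩ := h
  exact hF.congr fun w => hF' ⟨w⟩

open Classical in
theorem PT_of_FP_chi {L : Set Word} (h : FP A (chi L)) {f : α → Raw} (hf : PT A f) :
    PT A (fun a => decide ((f a).w ∈ L)) := by
  obtain ⟨F, hF, hF'⟩ := hf
  exact ⟨_, h.comp hF, fun a => by rw [hF']; rfl⟩

theorem PT_subst (hA : FP B (chi A)) {f : α → β} (hf : PT A f) : PT B f := by
  obtain ⟨F, hF, hF'⟩ := hf
  exact ⟨F, FP.subst hA hF, hF'⟩

/-! ### Threshold normal form -/

/-- The number of `s < m` with `f s`. -/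
def cnt (m : ℕ) (f : ℕ → Bool) : ℕ := ((range m).filter fun s => f s = true).card

theorem cnt_le (m : ℕ) (f : ℕ → Bool) : cnt m f ≤ m := by
  unfold cnt
  exact (card_filter_le _ _).trans (card_range m).le

theorem thr_mem_PP {L : Set Word} {f : Raw × ℕ → Bool} {m θ : Raw → ℕ} (hf : PT A f)
    (hm : PT A m) (hθ : PT A θ) (hL : ∀ x, x ∈ L ↔ θ ⟨x⟩ < cnt (m ⟨x⟩) fun s => f (⟨x⟩, s)) :
    L ∈ PP A := by
  obtain ⟨c, hc⟩ := hm.pbd
  obtain ⟨d, hd⟩ := hθ.pbd
  obtain ⟨q, hq⟩ := ((PB.pb c).add (PB.pb d)).exists_polynomial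
  let acc : Raw × Raw → Bool := fun z =>
    (decide (val z.2.w < m z.1) && f (z.1, val z.2.w)) ||
      (decide (2 ^ (z.2.w.length - 1) ≤ val z.2.w) &&
        decide (val z.2.w + θ z.1 < 2 * 2 ^ (z.2.w.length - 1)))
  have hv : PT A (fun z : Raw × Raw => val z.2.w) := PT.rawVal PT.snd'
  have hl : PT A (fun z : Raw × Raw => z.2.w.length - 1) :=
    (PT.rawLength PT.snd').sub (PT.const 1)
  have hQ : PT A (fun z : Raw × Raw => 2 ^ (z.2.w.length - 1)) :=
    PT.pow (PT.const 2) hl ((PT.snd' (A := A) (α := Raw) (β := Raw)).pbd.mono fun z => by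
      rw [esize_raw]; omega)
  have hacc : PT A acc :=
    ((hv.lt (hm.comp PT.fst')).and (hf.comp (PT.fst'.pair hv))).or
      ((hQ.le hv).and ((hv.add (hθ.comp PT.fst')).lt ((PT.const 2).mul hQ)))
  obtain ⟨G, hG, hG'⟩ := hacc
  refine mem_PP_iff.2 ⟨G, q + 1, hG, fun x => ?_⟩
  have e1 : (q + 1).eval x.length = q.eval x.length + 1 := by simp
  set k := q.eval x.length with hk
  have hmk : m ⟨x⟩ < 2 ^ k := by
    refine (lt_two_pow_esize _).trans_le (Nat.pow_le_pow_right (by omega) ?_)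
    have h1 := hc ⟨x⟩
    have h2 := hq x.length
    rw [esize_raw] at h1
    simp only at h1 h2
    omega
  have hθk : θ ⟨x⟩ < 2 ^ k := by
    refine (lt_two_pow_esize _).trans_le (Nat.pow_le_pow_right (by omega) ?_)
    have h1 := hd ⟨x⟩
    have h2 := hq x.length
    rw [esize_raw] at h1
    simp only at h1 h2
    omega
  rw [e1, hL, ncard_words]
  have e2 : ((range (2 ^ (k + 1))).filter fun s =>
      (G (pr x (padW (k + 1) s))).head? = some true) =
      ((range (m ⟨x⟩)).filter fun s => f (⟨x⟩, s) = true) ∪ Ico (2 ^ k) (2 * 2 ^ k - θ ⟨x⟩) := by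
    ext s
    have e3 : G (pr x (padW (k + 1) s)) = [acc (⟨x⟩, ⟨padW (k + 1) s⟩)] :=
      hG' (⟨x⟩, ⟨padW (k + 1) s⟩)
    simp only [mem_filter, mem_range, mem_union, mem_Ico, e3, List.head?_cons, Option.some.injEq]
    constructor
    · rintro ⟨h1, h2⟩
      simp only [acc, val_padW h1, length_padW, Nat.add_sub_cancel, Bool.or_eq_true,
        Bool.and_eq_true, decide_eq_true_eq] at h2
      rcases h2 with h2 | h2
      · exact Or.inl h2
      · exact Or.inr ⟨h2.1, by omega⟩
    · intro h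
      have h1 : s < 2 ^ (k + 1) := by
        rw [pow_succ]
        rcases h with h | h <;> omega
      refine ⟨h1, ?_⟩
      simp only [acc, val_padW h1, length_padW, Nat.add_sub_cancel, Bool.or_eq_true,
        Bool.and_eq_true, decide_eq_true_eq]
      rcases h with h | h
      · exact Or.inl h
      · exact Or.inr ⟨h.1, by omega⟩
  rw [e2, card_union_of_disjoint, Nat.card_Ico]
  · change θ ⟨x⟩ < ((range (m ⟨x⟩)).filter fun s => f (⟨x⟩, s) = true).card ↔ _
    rw [pow_succ]
    omega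
  · rw [disjoint_left]
    intro s h1 h2
    simp only [mem_filter, mem_range, mem_Ico] at h1 h2
    omega

theorem exists_thr_of_mem_PP {L : Set Word} (hL : L ∈ PP A) :
    ∃ (f : Raw × ℕ → Bool) (m θ : Raw → ℕ), PT A f ∧ PT A m ∧ PT A θ ∧
      ∀ x, x ∈ L ↔ θ ⟨x⟩ < cnt (m ⟨x⟩) fun s => f (⟨x⟩, s) := by
  obtain ⟨F, q, hF, h⟩ := mem_PP_iff.1 hL
  obtain ⟨u, hu, hu'⟩ := FP.exists_poly q (FP.id (A := A))
  have hq : PT A (fun x : Raw => q.eval x.w.length) :=
    (PT.rawLength (PT_ofFP hu PT.id)).congr fun x => hu' _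
  have hqb : PBd (fun x : Raw => q.eval x.w.length) := PBd.of_PB (PB.of_polynomial q)
  have h2 : PT A (fun x : Raw => 2 ^ q.eval x.w.length) := PT.pow (PT.const 2) hq hqb
  refine ⟨fun z => hd (F (pr z.1.w (padW (q.eval z.1.w.length) z.2))),
    fun x => 2 ^ q.eval x.w.length, fun x => 2 ^ q.eval x.w.length / 2, ?_, h2, h2.half,
    fun x => ?_⟩
  · exact PT.rawHd (PT_ofFP hF (PT_toRaw (PT.fst'.pair
      (PT_padW (hq.comp PT.fst') (hqb.comp (PT.fst' (A := A))) PT.snd'))))
  · rw [h, ncard_words]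
    have e : ∀ w : Word, (w.head? = some true) ↔ hd w = true := by
      intro w
      cases w <;> simp
    simp only [e, cnt]
    generalize ((range (2 ^ q.eval x.length)).filter fun s =>
      hd (F (pr x (padW (q.eval x.length) s))) = true).card = c
    rcases Nat.eq_zero_or_pos (q.eval x.length) with h0 | h0
    · rw [h0]; omega
    · obtain ⟨k, hk⟩ : ∃ k, q.eval x.length = k + 1 := ⟨_, (Nat.succ_pred_eq_of_pos h0).symm⟩
      rw [hk, pow_succ]; omega

theorem mem_PP_of_FP {L : Set Word} (h : FP A (chi L)) : L ∈ PP A := by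
  classical
  refine thr_mem_PP (f := fun z => decide (z.1.w ∈ L)) (m := fun _ => 1) (θ := fun _ => 0)
    ((PT_of_FP_chi h PT.fst').congr fun _ => by congr) (PT.const 1) (PT.const 0) fun x => ?_
  by_cases hx : x ∈ L <;> simp [cnt, hx]

theorem PP_mono (h : FP B (chi A)) : PP A ⊆ PP B := by
  intro L hL
  obtain ⟨F, q, hF, h'⟩ := mem_PP_iff.1 hL
  exact mem_PP_iff.2 ⟨F, q, FP.subst h hF, h'⟩

theorem mem_C_succ {j : ℕ} {L : Set Word} : L ∈ C (j + 1) ↔ ∃ A ∈ C j, L ∈ PP A := by
  simp [C]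

theorem mem_C_succ_of_FP {j : ℕ} {L : Set Word} (hA : A ∈ C j) (h : FP A (chi L)) :
    L ∈ C (j + 1) := mem_C_succ.2 ⟨A, hA, mem_PP_of_FP h⟩

theorem C_mono {i j : ℕ} (h : i ≤ j) : C i ⊆ C j := by
  induction h with
  | refl => exact subset_rfl
  | step _ ih => exact fun L hL => mem_C_succ_of_FP (ih hL) FP.oracle

/-! ### Joins -/

/-- The join of two languages. -/
def join (A B : Set Word) : Set Word := {w | if hd w then w.tail ∈ B else w.tail ∈ A}

theorem chi_congr {L L' : Set Word} {x y : Word} (h : x ∈ L ↔ y ∈ L') : chi L x = chi L' y := by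
  unfold chi
  rw [decide_eq_decide.2 h]

theorem FP_join_left : FP (join A B) (chi A) :=
  (FP.oracle.comp (FP.cons false)).congr fun x => chi_congr (by simp [join])

theorem FP_join_right : FP (join A B) (chi B) :=
  (FP.oracle.comp (FP.cons true)).congr fun x => chi_congr (by simp [join])

theorem join_mem_C (j : ℕ) : ∀ {A B : Set Word}, A ∈ C j → B ∈ C j → join A B ∈ C j := by
  induction j with
  | zero =>
    intro A B hA hB
    have hA' := mem_P_iff.1 hA
    have hB' := mem_P_iff.1 hB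
    refine mem_P_iff.2 ((FP.ifHd FP.id (hB'.comp FP.tail) (hA'.comp FP.tail)).congr fun x => ?_)
    by_cases h : hd x = true
    · rw [if_pos h]
      exact chi_congr (by simp [join, h])
    · rw [if_neg h]
      exact chi_congr (by simp [join, h])
  | succ j ih =>
    intro A B hA hB
    obtain ⟨A', hA', hA⟩ := mem_C_succ.1 hA
    obtain ⟨B', hB', hB⟩ := mem_C_succ.1 hB
    refine mem_C_succ.2 ⟨join A' B', ih hA' hB', ?_⟩
    obtain ⟨f, m, θ, hf, hm, hθ, h⟩ := exists_thr_of_mem_PP (PP_mono FP_join_left hA)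
    obtain ⟨f', m', θ', hf', hm', hθ', h'⟩ := exists_thr_of_mem_PP (PP_mono FP_join_right hB)
    have ht : PT (join A' B') (fun x : Raw => Raw.mk x.w.tail) := PT.rawTail PT.id
    have hh : PT (join A' B') (fun x : Raw => hd x.w) := PT.rawHd PT.id
    refine thr_mem_PP
      (f := fun z => bif hd z.1.w then f' (⟨z.1.w.tail⟩, z.2) else f (⟨z.1.w.tail⟩, z.2))
      (m := fun x => bif hd x.w then m' ⟨x.w.tail⟩ else m ⟨x.w.tail⟩)
      (θ := fun x => bif hd x.w then θ' ⟨x.w.tail⟩ else θ ⟨x.w.tail⟩)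
      ((hh.comp PT.fst').cond (hf'.comp ((ht.comp PT.fst').pair PT.snd'))
        (hf.comp ((ht.comp PT.fst').pair PT.snd')))
      (hh.cond (hm'.comp ht) (hm.comp ht)) (hh.cond (hθ'.comp ht) (hθ.comp ht)) fun x => ?_
    by_cases hx : hd x = true
    · simp [join, hx, h']
    · simp [join, hx, h]

theorem mem_CH {L : Set Word} : L ∈ CH ↔ ∃ j, L ∈ C j := by simp [CH]

theorem join_mem_CH (hA : A ∈ CH) (hB : B ∈ CH) : join A B ∈ CH := by
  obtain ⟨i, hi⟩ := mem_CH.1 hA
  obtain ⟨j, hj⟩ := mem_CH.1 hB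
  exact mem_CH.2 ⟨max i j, join_mem_C _ (C_mono (le_max_left _ _) hi)
    (C_mono (le_max_right _ _) hj)⟩

theorem empty_mem_CH : (∅ : Set Word) ∈ CH :=
  mem_CH.2 ⟨0, mem_P_iff.2 ((FP.const [false]).congr fun x => by simp [chi])⟩

theorem mem_CH_of_PP {L : Set Word} (hA : A ∈ CH) (h : L ∈ PP A) : L ∈ CH := by
  obtain ⟨j, hj⟩ := mem_CH.1 hA
  exact mem_CH.2 ⟨j + 1, mem_C_succ.2 ⟨A, hj, h⟩⟩

theorem mem_CH_of_FP {L : Set Word} (hA : A ∈ CH) (h : FP A (chi L)) : L ∈ CH :=
  mem_CH_of_PP hA (mem_PP_of_FP h)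

end Vale.Agent.P337
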