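import Vale.Agent.P337.CH.Basic

/-!
Functions computable in polynomial time with an oracle from the counting hierarchy (`CHF`) and
predicates decidable in this way (`CHP`): the closure properties inherited from polynomial time.
-/

namespace Vale.Agent.P337

open Vale.Agent.Lib.PolyTime Finset

variable {α β γ δ : Type*} [Enc α] [Enc β] [Enc γ] [Enc δ]

/-- Functions computable in polynomial time with an oracle from the counting hierarchy. -/
@[fun_prop]
def CHF (f : α → β) : Prop := ∃ A ∈ CH, PT A f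

/-- Predicates decidable in polynomial time with an oracle from the counting hierarchy. -/
@[fun_prop]
def CHP (p : α → Prop) : Prop := CHF fun a => @decide (p a) (Classical.propDecidable _)

/-- The filter of sufficiently strong oracles. -/
def orF : Filter (Set Word) where
  sets := {S | ∃ A ∈ CH, ∀ B, FP B (chi A) → B ∈ S}
  univ_sets := ⟨∅, empty_mem_CH, fun _ _ => trivial⟩
  sets_of_superset := by
    rintro S T ⟨A, hA, h⟩ hST
    exact ⟨A, hA, fun B hB => hST (h B hB)⟩
  inter_sets := by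
    rintro S T ⟨A, hA, h⟩ ⟨A', hA', h'⟩
    exact ⟨join A A', join_mem_CH hA hA', fun B hB =>
      ⟨h B (FP.subst hB FP_join_left), h' B (FP.subst hB FP_join_right)⟩⟩

protected theorem CHF.ev {f : α → β} (hf : CHF f) : ∀ᶠ A in orF, PT A f := by
  obtain ⟨A, hA, h⟩ := hf
  exact ⟨A, hA, fun B hB => PT_subst hB h⟩

protected theorem CHF.of_ev {f : α → β} (hf : ∀ᶠ A in orF, PT A f) : CHF f := by
  obtain ⟨A, hA, h⟩ := hf
  exact ⟨A, hA, h A FP.oracle⟩

theorem orF_exists {p : Set Word → Prop} (h : ∀ᶠ A in orF, p A) : ∃ A ∈ CH, p A := by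
  obtain ⟨A, hA, h⟩ := h
  exact ⟨A, hA, h A FP.oracle⟩

protected theorem CHF.of_PT {f : α → β} (hf : PT ∅ f) : CHF f := ⟨∅, empty_mem_CH, hf⟩

protected theorem CHF.congr {f g : α → β} (hf : CHF f) (h : ∀ a, f a = g a) : CHF g := by
  have : f = g := funext h
  rwa [← this]

protected theorem CHF.lift1 {α' β' : Type*} [Enc α'] [Enc β'] {f : α → β} {k : α' → β'} (hf : CHF f)
    (h : ∀ A, PT A f → PT A k) : CHF k := by
  obtain ⟨A, hA, hf⟩ := hf
  exact ⟨A, hA, h A hf⟩

protected theorem CHF.lift2 {α' β' α'' β'' : Type*} [Enc α'] [Enc β'] [Enc α''] [Enc β''] {f : α → β}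
    {g : α' → β'} {k : α'' → β''} (hf : CHF f) (hg : CHF g)
    (h : ∀ A, PT A f → PT A g → PT A k) : CHF k := by
  refine CHF.of_ev ?_
  filter_upwards [hf.ev, hg.ev] with A hf hg using h A hf hg

protected theorem CHF.lift3 {α' β' α'' β'' α''' β''' : Type*} [Enc α'] [Enc β'] [Enc α''] [Enc β'']
    [Enc α'''] [Enc β'''] {f : α → β} {g : α' → β'} {g' : α'' → β''} {k : α''' → β'''}
    (hf : CHF f) (hg : CHF g) (hg' : CHF g')
    (h : ∀ A, PT A f → PT A g → PT A g' → PT A k) : CHF k := by
  refine CHF.of_ev ?_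
  filter_upwards [hf.ev, hg.ev, hg'.ev] with A hf hg hg' using h A hf hg hg'

/-! ### Polynomial bounds -/

protected theorem CHF.pbd {f : α → β} (hf : CHF f) : PBd (fun a => esize (f a)) := by
  obtain ⟨A, -, hf⟩ := hf
  exact hf.pbd

@[fun_prop]
theorem PBd_comp {b : β → ℕ} {f : α → β} (hb : PBd b) (hf : CHF f) : PBd (fun a => b (f a)) := by
  obtain ⟨A, -, hf⟩ := hf
  exact hb.comp hf

@[fun_prop]
theorem PBd_esize {f : α → β} (hf : CHF f) : PBd (fun a => esize (f a)) := hf.pbd

@[fun_prop]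
theorem PBd_size {f : α → ℕ} (hf : CHF f) : PBd (fun a => Nat.size (f a)) :=
  hf.pbd.mono fun _ => (esize_nat _).ge

@[fun_prop]
theorem PBd_unVal {f : α → Un} (hf : CHF f) : PBd (fun a => (f a).v) :=
  hf.pbd.mono fun _ => (esize_un _).ge

@[fun_prop]
theorem PBd_length {f : α → List β} (hf : CHF f) : PBd (fun a => (f a).length) :=
  hf.pbd.mono fun _ => length_le_esize _

@[fun_prop]
theorem PBd_pb {b : α → ℕ} (c : ℕ) (hb : PBd b) : PBd (fun a => pb c (b a)) :=
  (hb.add (PBd.const 2)).pow c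

@[fun_prop]
theorem PBd_sub {b b' : α → ℕ} (hb : PBd b) : PBd (fun a => b a - b' a) :=
  hb.mono fun _ => Nat.sub_le _ _

@[fun_prop]
theorem PBd_div {b b' : α → ℕ} (hb : PBd b) : PBd (fun a => b a / b' a) :=
  hb.mono fun _ => Nat.div_le_self _ _

@[fun_prop]
theorem PBd_max {b b' : α → ℕ} (hb : PBd b) (hb' : PBd b') : PBd (fun a => max (b a) (b' a)) :=
  (hb.add hb').mono fun _ => by omega

@[fun_prop]
theorem PBd_min_right {b b' : α → ℕ} (hb' : PBd b') : PBd (fun a => min (b a) (b' a)) :=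
  hb'.mono fun _ => by omega

@[fun_prop]
theorem PBd_succ {b : α → ℕ} (hb : PBd b) : PBd (fun a => Nat.succ (b a)) :=
  hb.add (PBd.const 1)

/-! ### Lambda calculus -/

@[fun_prop]
protected theorem CHF.id : CHF (fun a : α => a) := CHF.of_PT PT.id

@[fun_prop]
protected theorem CHF.const (b : β) : CHF (fun _ : α => b) := CHF.of_PT (PT.const b)

@[fun_prop]
protected theorem CHF.comp {g : β → γ} {f : α → β} (hg : CHF g) (hf : CHF f) : CHF (fun a => g (f a)) :=
  hg.lift2 hf fun _ => PT.comp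

@[fun_prop]
protected theorem CHF.pair {f : α → β} {g : α → γ} (hf : CHF f) (hg : CHF g) : CHF (fun a => (f a, g a)) :=
  hf.lift2 hg fun _ => PT.pair

@[fun_prop]
protected theorem CHF.fst {f : α → β × γ} (hf : CHF f) : CHF (fun a => (f a).1) := hf.lift1 fun _ => PT.fst

@[fun_prop]
protected theorem CHF.snd {f : α → β × γ} (hf : CHF f) : CHF (fun a => (f a).2) := hf.lift1 fun _ => PT.snd

protected theorem CHP.dec {p : α → Prop} (hp : CHP p) [DecidablePred p] : CHF (fun a => decide (p a)) :=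
  CHF.congr hp fun _ => by congr

@[fun_prop]
protected theorem CHF.decide {p : α → Prop} {inst : ∀ a, Decidable (p a)} (hp : CHP p) :
    CHF (fun a => @Decidable.decide (p a) (inst a)) :=
  CHF.congr hp fun _ => by congr

protected theorem CHP.of_dec {p : α → Prop} [DecidablePred p] (hp : CHF (fun a => decide (p a))) : CHP p :=
  CHF.congr hp fun _ => by congr

protected theorem CHP.congr {p q : α → Prop} (hp : CHP p) (h : ∀ a, p a ↔ q a) : CHP q := by
  have : p = q := funext fun a => propext (h a)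
  rwa [← this]

@[fun_prop]
protected theorem CHP.const (q : Prop) : CHP (fun _ : α => q) := CHF.const _

@[fun_prop]
protected theorem CHP.comp {p : β → Prop} {f : α → β} (hp : CHP p) (hf : CHF f) : CHP (fun a => p (f a)) :=
  CHF.comp hp hf

/-! ### Booleans and propositions -/

@[fun_prop]
protected theorem CHF.cond {c : α → Bool} {f g : α → β} (hc : CHF c) (hf : CHF f) (hg : CHF g) :
    CHF (fun a => bif c a then f a else g a) := hc.lift3 hf hg fun _ => PT.cond

@[fun_prop]
protected theorem CHF.ite {p : α → Prop} {inst : ∀ a, Decidable (p a)} {f g : α → β} (hp : CHP p)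
    (hf : CHF f) (hg : CHF g) : CHF (fun a => @ite _ (p a) (inst a) (f a) (g a)) :=
  (CHF.cond hp hf hg).congr fun a => by by_cases h : p a <;> simp [h]

@[fun_prop]
protected theorem CHF.not {f : α → Bool} (hf : CHF f) : CHF (fun a => !(f a)) := hf.lift1 fun _ => PT.not

@[fun_prop]
protected theorem CHF.and {f g : α → Bool} (hf : CHF f) (hg : CHF g) : CHF (fun a => f a && g a) :=
  hf.lift2 hg fun _ => PT.and

@[fun_prop]
protected theorem CHF.or {f g : α → Bool} (hf : CHF f) (hg : CHF g) : CHF (fun a => f a || g a) :=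
  hf.lift2 hg fun _ => PT.or

@[fun_prop]
protected theorem CHP.not {p : α → Prop} (hp : CHP p) : CHP (fun a => ¬ p a) :=
  (CHF.not hp).congr fun a => by by_cases h : p a <;> simp [h]

@[fun_prop]
protected theorem CHP.and {p q : α → Prop} (hp : CHP p) (hq : CHP q) : CHP (fun a => p a ∧ q a) :=
  (CHF.and hp hq).congr fun a => by by_cases h : p a <;> by_cases h' : q a <;> simp [h, h']

@[fun_prop]
protected theorem CHP.or {p q : α → Prop} (hp : CHP p) (hq : CHP q) : CHP (fun a => p a ∨ q a) :=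
  (CHF.or hp hq).congr fun a => by by_cases h : p a <;> by_cases h' : q a <;> simp [h, h']

protected theorem CHP.imp {p q : α → Prop} (hp : CHP p) (hq : CHP q) : CHP (fun a => p a → q a) :=
  (hp.not.or hq).congr fun _ => imp_iff_not_or.symm

@[fun_prop]
protected theorem CHP.iff {p q : α → Prop} (hp : CHP p) (hq : CHP q) : CHP (fun a => p a ↔ q a) :=
  ((hp.imp hq).and (hq.imp hp)).congr fun _ => iff_def.symm

protected theorem CHP.of_bool {f : α → Bool} (hf : CHF f) : CHP (fun a => f a = true) :=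
  hf.congr fun a => by simp

@[fun_prop]
protected theorem CHP.eq [EncInj β] {f g : α → β} (hf : CHF f) (hg : CHF g) : CHP (fun a => f a = g a) := by
  classical
  exact CHP.of_dec (hf.lift2 hg fun _ => PT.eq)

@[fun_prop]
protected theorem CHP.ne [EncInj β] {f g : α → β} (hf : CHF f) (hg : CHF g) : CHP (fun a => f a ≠ g a) :=
  (CHP.eq hf hg).not

instance : EncInj ℤ := ⟨fun a b h => by
  have h1 : (decide (a < 0), a.natAbs) = (decide (b < 0), b.natAbs) := EncInj.inj h
  simp only [Prod.mk.injEq, decide_eq_decide] at h1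
  omega⟩

instance : EncInj Un := ⟨fun a b h => by
  have h1 := congrArg List.length h
  rw [enc_un, enc_un, List.length_replicate, List.length_replicate] at h1
  cases a
  cases b
  simpa using h1⟩

instance : EncInj Raw := ⟨fun a b h => by
  cases a
  cases b
  simpa [enc_raw] using h⟩

/-! ### Natural numbers -/

@[fun_prop]
protected theorem CHF.add {f g : α → ℕ} (hf : CHF f) (hg : CHF g) : CHF (fun a => f a + g a) :=
  hf.lift2 hg fun _ => PT.add

@[fun_prop]
protected theorem CHF.sub {f g : α → ℕ} (hf : CHF f) (hg : CHF g) : CHF (fun a => f a - g a) :=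
  hf.lift2 hg fun _ => PT.sub

@[fun_prop]
protected theorem CHF.mul {f g : α → ℕ} (hf : CHF f) (hg : CHF g) : CHF (fun a => f a * g a) :=
  hf.lift2 hg fun _ => PT.mul

@[fun_prop]
protected theorem CHF.div {f g : α → ℕ} (hf : CHF f) (hg : CHF g) : CHF (fun a => f a / g a) :=
  hf.lift2 hg fun _ => PT.div

@[fun_prop]
protected theorem CHF.mod {f g : α → ℕ} (hf : CHF f) (hg : CHF g) : CHF (fun a => f a % g a) :=
  hf.lift2 hg fun _ => PT.mod

@[fun_prop]
protected theorem CHF.min {f g : α → ℕ} (hf : CHF f) (hg : CHF g) : CHF (fun a => min (f a) (g a)) :=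
  hf.lift2 hg fun _ => PT.min

@[fun_prop]
protected theorem CHF.max {f g : α → ℕ} (hf : CHF f) (hg : CHF g) : CHF (fun a => max (f a) (g a)) :=
  hf.lift2 hg fun _ => PT.max

@[fun_prop]
protected theorem CHF.succ {f : α → ℕ} (hf : CHF f) : CHF (fun a => Nat.succ (f a)) :=
  hf.lift1 fun _ => PT.succ

@[fun_prop]
protected theorem CHF.pow {f g : α → ℕ} (hf : CHF f) (hg : CHF g) (hb : PBd g) :
    CHF (fun a => f a ^ g a) := hf.lift2 hg fun _ hf hg => PT.pow hf hg hb

protected theorem CHF.powMod {f g m : α → ℕ} (hf : CHF f) (hg : CHF g) (hm : CHF m) :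
    CHF (fun a => f a ^ g a % (m a + 1)) :=
  hf.lift3 hg hm fun _ hf hg hm => PT.powModPos hf hg (hm.add (PT.const 1)) fun _ => Nat.succ_pos _

@[fun_prop]
protected theorem CHF.natSize {f : α → ℕ} (hf : CHF f) : CHF (fun a => Nat.size (f a)) :=
  hf.lift1 fun _ => PT.natSize

@[fun_prop]
protected theorem CHF.esize {f : α → β} (hf : CHF f) : CHF (fun a => esize (f a)) :=
  hf.lift1 fun _ => PT.size

@[fun_prop]
protected theorem CHF.pb (c : ℕ) {f : α → ℕ} (hf : CHF f) : CHF (fun a => pb c (f a)) :=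
  CHF.pow (hf.add (CHF.const 2)) (CHF.const c) (PBd.const c)

@[fun_prop]
protected theorem CHP.lt {f g : α → ℕ} (hf : CHF f) (hg : CHF g) : CHP (fun a => f a < g a) :=
  CHP.of_dec (hf.lift2 hg fun _ => PT.lt)

@[fun_prop]
protected theorem CHP.le {f g : α → ℕ} (hf : CHF f) (hg : CHF g) : CHP (fun a => f a ≤ g a) :=
  CHP.of_dec (hf.lift2 hg fun _ => PT.le)

@[fun_prop]
protected theorem CHP.dvd {f g : α → ℕ} (hf : CHF f) (hg : CHF g) : CHP (fun a => f a ∣ g a) :=
  CHP.of_dec (hf.lift2 hg fun _ => PT.decDvd)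

@[fun_prop]
protected theorem CHF.unVal {f : α → Un} (hf : CHF f) : CHF (fun a => (f a).v) := hf.lift1 fun _ => PT.unVal

@[fun_prop]
protected theorem CHF.mkUn {f : α → ℕ} (hf : CHF f) (hb : PBd f) : CHF (fun a => Un.mk (f a)) :=
  hf.lift1 fun _ hf => PT.mkUn hf hb

/-! ### Integers -/

@[fun_prop]
protected theorem CHF.natAbs {f : α → ℤ} (hf : CHF f) : CHF (fun a => (f a).natAbs) :=
  hf.lift1 fun _ => PT.natAbs

@[fun_prop]
protected theorem CHF.toNat {f : α → ℤ} (hf : CHF f) : CHF (fun a => (f a).toNat) :=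
  hf.lift1 fun _ => PT.toNat

@[fun_prop]
protected theorem CHF.natCast {f : α → ℕ} (hf : CHF f) : CHF (fun a => (f a : ℤ)) :=
  hf.lift1 fun _ => PT.natCast

@[fun_prop]
protected theorem CHF.intNeg {f : α → ℤ} (hf : CHF f) : CHF (fun a => - f a) := hf.lift1 fun _ => PT.intNeg

@[fun_prop]
protected theorem CHF.intAdd {f g : α → ℤ} (hf : CHF f) (hg : CHF g) : CHF (fun a => f a + g a) :=
  hf.lift2 hg fun _ => PT.intAdd

@[fun_prop]
protected theorem CHF.intSub {f g : α → ℤ} (hf : CHF f) (hg : CHF g) : CHF (fun a => f a - g a) :=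
  hf.lift2 hg fun _ => PT.intSub

@[fun_prop]
protected theorem CHF.intMul {f g : α → ℤ} (hf : CHF f) (hg : CHF g) : CHF (fun a => f a * g a) :=
  hf.lift2 hg fun _ => PT.intMul

@[fun_prop]
protected theorem CHF.intMod {f g : α → ℤ} (hf : CHF f) (hg : CHF g) : CHF (fun a => f a % g a) :=
  hf.lift2 hg fun _ => PT.intMod

@[fun_prop]
protected theorem CHP.intLt {f g : α → ℤ} (hf : CHF f) (hg : CHF g) : CHP (fun a => f a < g a) :=
  CHP.of_dec (hf.lift2 hg fun _ => PT.intLt)

@[fun_prop]
protected theorem CHP.intLe {f g : α → ℤ} (hf : CHF f) (hg : CHF g) : CHP (fun a => f a ≤ g a) :=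
  CHP.of_dec (hf.lift2 hg fun _ => PT.intLe)

/-! ### Lists and options -/

@[fun_prop]
protected theorem CHF.cons {f : α → β} {g : α → List β} (hf : CHF f) (hg : CHF g) :
    CHF (fun a => f a :: g a) := hf.lift2 hg fun _ => PT.cons

@[fun_prop]
protected theorem CHF.tail {f : α → List β} (hf : CHF f) : CHF (fun a => (f a).tail) :=
  hf.lift1 fun _ => PT.tail

@[fun_prop]
protected theorem CHF.headD {f : α → List β} {d : α → β} (hf : CHF f) (hd : CHF d) :
    CHF (fun a => (f a).headD (d a)) := hf.lift2 hd fun _ => PT.headD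

@[fun_prop]
protected theorem CHF.length {f : α → List β} (hf : CHF f) : CHF (fun a => (f a).length) :=
  hf.lift1 fun _ => PT.length

@[fun_prop]
protected theorem CHF.append {f g : α → List β} (hf : CHF f) (hg : CHF g) : CHF (fun a => f a ++ g a) :=
  hf.lift2 hg fun _ => PT.append

@[fun_prop]
protected theorem CHF.reverse {f : α → List β} (hf : CHF f) : CHF (fun a => (f a).reverse) :=
  hf.lift1 fun _ => PT.reverse

@[fun_prop]
protected theorem CHF.drop {l : α → List β} {i : α → ℕ} (hl : CHF l) (hi : CHF i) :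
    CHF (fun a => (l a).drop (i a)) := hl.lift2 hi fun _ => PT.drop

@[fun_prop]
protected theorem CHF.take {l : α → List β} {i : α → ℕ} (hl : CHF l) (hi : CHF i) :
    CHF (fun a => (l a).take (i a)) := hl.lift2 hi fun _ => PT.take

@[fun_prop]
protected theorem CHF.getD {l : α → List β} {i : α → ℕ} {d : α → β} (hl : CHF l) (hi : CHF i)
    (hd : CHF d) : CHF (fun a => (l a).getD (i a) (d a)) := hl.lift3 hi hd fun _ => PT.getD

@[fun_prop]
protected theorem CHF.range {k : α → ℕ} (hk : CHF k) (hb : PBd k) : CHF (fun a => List.range (k a)) :=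
  hk.lift1 fun _ hk => PT.range hk hb

@[fun_prop]
protected theorem CHF.replicate {n : α → ℕ} {x : α → β} (hn : CHF n) (hb : PBd n) (hx : CHF x) :
    CHF (fun a => List.replicate (n a) (x a)) := hn.lift2 hx fun _ hn hx => PT.replicate hn hb hx

@[fun_prop]
protected theorem CHF.map {l : α → List γ} {f : α → γ → β} (hl : CHF l)
    (hf : CHF (fun p : α × γ => f p.1 p.2)) : CHF (fun a => (l a).map (f a)) :=
  hl.lift2 hf fun _ => PT.map

@[fun_prop]
protected theorem CHF.all {l : α → List γ} {f : α → γ → Bool} (hl : CHF l)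
    (hf : CHF (fun p : α × γ => f p.1 p.2)) : CHF (fun a => (l a).all (f a)) :=
  hl.lift2 hf fun _ => PT.all

@[fun_prop]
protected theorem CHF.zip {f : α → List β} {g : α → List γ} (hf : CHF f) (hg : CHF g) :
    CHF (fun a => (f a).zip (g a)) := hf.lift2 hg fun _ => PT.zip

@[fun_prop]
protected theorem CHF.listSum {l : α → List ℕ} (hl : CHF l) : CHF (fun a => (l a).sum) :=
  hl.lift1 fun _ => PT.sum

protected theorem CHF.foldr {l : α → List γ} {init : α → β} {f : α → γ → β → β} (hl : CHF l)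
    (hi : CHF init) (hf : CHF (fun p : α × γ × β => f p.1 p.2.1 p.2.2)) {b : α → ℕ} (hb : PBd b)
    (h : ∀ a i, esize (((l a).drop i).foldr (f a) (init a)) ≤ b a) :
    CHF (fun a => (l a).foldr (f a) (init a)) :=
  hl.lift3 hi hf fun _ hl hi hf => PT.foldr hl hi hf hb h

protected theorem CHF.natRec {k : α → ℕ} {init : α → β} {step : α → ℕ → β → β} (hk : CHF k) (hkb : PBd k)
    (hi : CHF init) (hs : CHF (fun p : α × ℕ × β => step p.1 p.2.1 p.2.2)) {b : α → ℕ}
    (hb : PBd b)
    (h : ∀ a, ∀ j ≤ k a,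
      esize (Nat.rec (motive := fun _ => β) (init a) (step a) j) ≤ b a) :
    CHF (fun a => Nat.rec (motive := fun _ => β) (init a) (step a) (k a)) :=
  hk.lift3 hi hs fun _ hk hi hs => PT.natRec hk hkb hi hs hb h

/-- A language whose characteristic predicate is `CHP` lies in the counting hierarchy. -/
theorem mem_CH_of_CHP {L : Set Word} (h : CHP (fun w : Raw => w.w ∈ L)) : L ∈ CH := by
  obtain ⟨A, hA, h⟩ := h
  exact mem_CH_of_FP hA (FP_chi_of_PT h)

example {f g : α → ℕ} {l : α → List ℕ} (hf : CHF f) (hg : CHF g) (hl : CHF l) (hb : PBd g) :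
    CHF (fun x : α × ℕ => if f x.1 < x.2 ∧ ¬ (g x.1 = 3) then (l x.1).getD x.2 0 + 2 ^ (g x.1 + 1)
      else ((List.range (g x.1)).map fun i => i + x.2).sum) := by
  fun_prop

example {f g : α → ℕ} (hf : CHF f) (hg : CHF g) :
    CHP (fun x : α × ℕ × ℤ => f x.1 ≤ x.2.1 ∨ (x.2.2 < (g x.1 : ℤ) - 1 ↔ x.2.1 % 2 = 1)) := by
  fun_prop

end Vale.Agent.P337
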