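import Vale.Agent.P337.CH.MC
import Vale.Agent.P337.CoeffFp

/-!
Coefficient extraction in the class `MC`.
-/

namespace Vale.Agent.P337

open Vale.Agent.Lib.PolyTime Finset

variable {α β : Type*} [Enc α] [Enc β] {D : α → β → Prop}

theorem succ_pow_le_two_pow (M k : ℕ) : (M + 1) ^ k ≤ 2 ^ ((M + 1) * k) := by
  rw [pow_mul]
  exact Nat.pow_le_pow_left Nat.lt_two_pow_self.le _

theorem natAbs_le_of_sum {ι : Type*} [Fintype ι] {z : ℤ} {w : ι → ℚ} {v : ι → ℤ} {W V : ℕ}
    (h : (z : ℚ) = ∑ t, w t * (v t : ℚ)) (hw : ∀ t, |w t| ≤ (W : ℚ))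
    (hv : ∀ t, (v t).natAbs ≤ V) : z.natAbs ≤ Fintype.card ι * (W * V) := by
  have h1 : |(z : ℚ)| ≤ (Fintype.card ι : ℚ) * ((W : ℚ) * V) := by
    rw [h]
    refine (abs_sum_le_sum_abs _ _).trans ?_
    refine (sum_le_card_nsmul _ _ ((W : ℚ) * V) fun t _ => ?_).trans ?_
    · rw [abs_mul]
      refine mul_le_mul (hw t) ?_ (abs_nonneg _) (Nat.cast_nonneg _)
      rw [← Int.cast_abs, Int.abs_eq_natAbs]
      exact_mod_cast hv t
    · rw [card_univ, nsmul_eq_mul]
  rw [← Int.cast_abs, Int.abs_eq_natAbs] at h1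
  exact_mod_cast h1

protected theorem MC.coeff {F : α → β → Polynomial ℤ}
    (hF : MC (fun a (x : β × ℕ) => D a x.1) (fun a x => (F a x.1).eval (x.2 : ℤ)))
    (hd : EB D (fun a b => (F a b).natDegree)) {k : α → β → ℕ}
    (hk : CHF (fun x : α × β => k x.1 x.2)) : MC D (fun a b => (F a b).coeff (k a b)) := by
  obtain ⟨⟨T, hT, h1⟩, ⟨e, he, h2⟩⟩ := hF
  obtain ⟨M, hM, hM'⟩ := hd
  have hk1 : CHF (fun y : (α × β) × ℕ => k y.1.1 y.1.2) := hk.comp (by fun_prop)
  constructor
  · refine ⟨fun a => T a + M a + 1, by fun_prop, ?_⟩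
    have h3 : ZC (fun y : (α × β) × ℕ => D y.1.1 y.1.2 ∧ T y.1.1 + M y.1.1 + 1 < y.2)
        (fun y => y.2) (fun y => if k y.1.1 y.1.2 ≤ M y.1.1 then ∑ t ∈ range y.2,
          (-((t : ZMod y.2) ^ (y.2 - 1 - k y.1.1 y.1.2))) *
            (((F y.1.1 y.1.2).eval (t : ℤ) : ℤ) : ZMod y.2) else ((0 : ℕ) : ZMod y.2)) := by
      refine ZC.ite (by fun_prop) (ZC.sum_range (by fun_prop) (ZC.mul (ZC.neg (by fun_prop)
        (ZC.pow (by fun_prop) (ZC.natCast (by fun_prop)) (by fun_prop))) ?_))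
        (ZC.natCast (by fun_prop))
      exact (h1.comp (u := fun z : ((α × β) × ℕ) × ℕ => ((z.1.1.1, (z.1.1.2, z.2)), z.1.2))
        (by fun_prop)).congr fun z hz _ => ⟨⟨hz.1.1.1, by have := hz.1.1.2; dsimp only; omega⟩, rfl⟩
    refine h3.congr fun y hy hp => ⟨hy, ?_⟩
    obtain ⟨⟨a, b⟩, p⟩ := y
    dsimp only at hy hp ⊢
    have hdeg := hM' a b hy.1
    dsimp only at hdeg
    split_ifs with h
    · have := Fact.mk hp
      have h4 := coeff_eq_sum_uni (weights_zmod p (d := M a) (by omega))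
        ((F a b).map (Int.castRingHom (ZMod p))) (Polynomial.natDegree_map_le.trans hdeg) h
      rw [Polynomial.coeff_map, eq_intCast] at h4
      rw [h4, sum_range]
      refine sum_congr rfl fun t _ => ?_
      rw [Polynomial.eval_map, Polynomial.eval₂_at_natCast, eq_intCast]
    · rw [Polynomial.coeff_eq_zero_of_natDegree_lt (by omega)]
      simp
  · obtain ⟨V, hV, hV'⟩ := CHF.exists_bound (f := fun (x : α × β) s => e (x.1, (x.2, s)))
      (m := fun x => M x.1 + 1) (by fun_prop) (by fun_prop)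
    refine ⟨fun x => (M x.1 + 1) * (M x.1 + 1) + V x, by fun_prop, fun a b hab => ?_⟩
    have hdeg := hM' a b hab
    dsimp only at hdeg ⊢
    by_cases h : k a b ≤ M a
    · obtain ⟨w, hw, hw'⟩ := weights_rat (M a)
      have h4 := coeff_eq_sum_uni hw ((F a b).map (Int.castRingHom ℚ))
        (Polynomial.natDegree_map_le.trans hdeg) h
      rw [Polynomial.coeff_map, eq_intCast] at h4
      have h5 := natAbs_le_of_sum (z := (F a b).coeff (k a b)) (w := w (k a b))
        (v := fun t : Fin (M a + 1) => (F a b).eval ((t : ℕ) : ℤ)) (W := (M a + 1) ^ M a)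
        (V := 2 ^ V (a, b)) (h4.trans (sum_congr rfl fun t _ => by
          rw [Polynomial.eval_map, Polynomial.eval₂_at_natCast, eq_intCast]))
        (fun t => by exact_mod_cast hw' _ t) (fun t => (h2 a (b, t) hab).trans
          (Nat.pow_le_pow_right (by omega) (hV' (a, b) t t.2)))
      rw [Fintype.card_fin, ← mul_assoc, ← pow_succ'] at h5
      rw [pow_add]
      exact h5.trans (Nat.mul_le_mul_right _ (succ_pow_le_two_pow _ _))
    · rw [Polynomial.coeff_eq_zero_of_natDegree_lt (by omega)]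
      simp

theorem eval_map_natCast {K σ : Type*} [CommRing K] (F : MvPolynomial σ ℤ) (t : σ → ℕ) :
    MvPolynomial.eval (fun i => (t i : K)) (MvPolynomial.map (Int.castRingHom K) F) =
      ((MvPolynomial.eval (fun i => (t i : ℤ)) F : ℤ) : K) := by
  induction F using MvPolynomial.induction_on with
  | C a => simp
  | add p q hp hq => simp [hp, hq]
  | mul_X p j hp => simp [hp]

theorem totalDegree_map_le' {K L σ : Type*} [CommRing K] [CommRing L] (φ : K →+* L)
    (F : MvPolynomial σ K) : (MvPolynomial.map φ F).totalDegree ≤ F.totalDegree :=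
  Finset.sup_mono (MvPolynomial.support_map_subset φ F)

theorem coeff_eq_zero_of_lt {K σ : Type*} [CommRing K] {F : MvPolynomial σ K} {d : σ →₀ ℕ}
    {i : σ} (h : F.totalDegree < d i) : MvPolynomial.coeff d F = 0 := by
  by_contra h1
  have h2 := (MvPolynomial.monomial_le_degreeOf i (MvPolynomial.mem_support_iff.2 h1)).trans
    (MvPolynomial.degreeOf_le_totalDegree F i)
  omega

protected theorem MC.mvcoeff {n : α → ℕ} (hn : CHF n) (hnb : PBd n)
    {F : (a : α) → β → MvPolynomial (Fin (n a)) ℤ}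
    (hF : MC (fun a (x : β × List ℕ) => D a x.1)
      (fun a x => MvPolynomial.eval (fun i : Fin (n a) => ((x.2.getD i 0 : ℕ) : ℤ)) (F a x.1)))
    (hd : EB D (fun a b => (F a b).totalDegree)) {d : (a : α) → β → (Fin (n a) →₀ ℕ)}
    {dd : α → β → ℕ → ℕ} (hdd : CHF (fun x : (α × β) × ℕ => dd x.1.1 x.1.2 x.2))
    (h : ∀ a b, D a b → ∀ i, d a b i = dd a b i) :
    MC D (fun a b => MvPolynomial.coeff (d a b) (F a b)) := by
  classical
  obtain ⟨⟨T, hT, h1⟩, ⟨e, he, h2⟩⟩ := hF
  obtain ⟨M, hM, hM'⟩ := hd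
  constructor
  · refine ⟨fun a => T a + M a + 1, by fun_prop, ?_⟩
    have h3 : ZC (fun y : (α × β) × ℕ => D y.1.1 y.1.2 ∧ T y.1.1 + M y.1.1 + 1 < y.2)
        (fun y => y.2) (fun y => if ∃ i, i < n y.1.1 ∧ M y.1.1 < dd y.1.1 y.1.2 i then
          ((0 : ℕ) : ZMod y.2) else ∑ s ∈ range (y.2 ^ n y.1.1),
          (∏ i ∈ range (n y.1.1), -((((digs y.2 (n y.1.1) s).getD i 0 : ℕ) : ZMod y.2) ^
            (y.2 - 1 - dd y.1.1 y.1.2 i))) *
            ((MvPolynomial.eval
              (fun i : Fin (n y.1.1) => (((digs y.2 (n y.1.1) s).getD i 0 : ℕ) : ℤ))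
              (F y.1.1 y.1.2) : ℤ) : ZMod y.2)) := by
      refine ZC.ite (CHP.exists_lt (CHP.lt (by fun_prop) (hdd.comp
        (f := fun z : ((α × β) × ℕ) × ℕ => (z.1.1, z.2)) (by fun_prop))) (by fun_prop))
        (ZC.natCast (by fun_prop)) (ZC.sum_range (by fun_prop) (ZC.mul
          (ZC.prod_range (by fun_prop) (by fun_prop) (ZC.neg (by fun_prop)
            (ZC.pow (by fun_prop) (ZC.natCast (by fun_prop)) (CHF.sub (by fun_prop)
              (hdd.comp (f := fun z : (((α × β) × ℕ) × ℕ) × ℕ => (z.1.1.1, z.2))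
                (by fun_prop)))))) ?_))
      exact (h1.comp (u := fun z : ((α × β) × ℕ) × ℕ =>
        ((z.1.1.1, (z.1.1.2, digs z.1.2 (n z.1.1.1) z.2)), z.1.2))
        (by fun_prop)).congr fun z hz _ => ⟨⟨hz.1.1.1, by have := hz.1.1.2; dsimp only; omega⟩, rfl⟩
    refine h3.congr fun y hy hp => ⟨hy, ?_⟩
    obtain ⟨⟨a, b⟩, p⟩ := y
    dsimp only at hy hp ⊢
    have hdeg := hM' a b hy.1
    dsimp only at hdeg
    split_ifs with h5
    · obtain ⟨i, hi, h5⟩ := h5
      rw [coeff_eq_zero_of_lt (i := ⟨i, hi⟩) (by rw [h a b hy.1]; exact hdeg.trans_lt h5)]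
      simp
    · have := Fact.mk hp
      have h4 := coeff_eq_sum_multi (weights_zmod p (d := M a) (by omega))
        (MvPolynomial.map (Int.castRingHom (ZMod p)) (F a b))
        ((totalDegree_map_le' _ _).trans hdeg) (b := d a b) fun i => by
          rw [h a b hy.1]
          exact not_lt.1 fun h6 => h5 ⟨i, i.2, h6⟩
      rw [MvPolynomial.coeff_map, eq_intCast] at h4
      rw [h4]
      simp only [prod_range]
      rw [sum_digs p (n a) fun t => (∏ i : Fin (n a), -((t i : ZMod p) ^ (p - 1 - dd a b i))) *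
        ((MvPolynomial.eval (fun i => (t i : ℤ)) (F a b) : ℤ) : ZMod p)]
      refine sum_congr rfl fun t _ => ?_
      rw [eval_map_natCast]
      simp only [h a b hy.1]
  · obtain ⟨V, hV, hV'⟩ := CHF.exists_bound
      (f := fun (x : α × β) s => e (x.1, (x.2, digs (M x.1 + 1) (n x.1) s)))
      (m := fun x => (M x.1 + 1) ^ n x.1) (by fun_prop) (by fun_prop)
    refine ⟨fun x => (M x.1 + 1) * ((M x.1 + 1) * n x.1) + V x, by fun_prop, fun a b hab => ?_⟩
    have hdeg := hM' a b hab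
    dsimp only at hdeg ⊢
    by_cases h5 : ∃ i, M a < d a b i
    · obtain ⟨i, h5⟩ := h5
      rw [coeff_eq_zero_of_lt (i := i) (hdeg.trans_lt h5)]
      simp
    · obtain ⟨w, hw, hw'⟩ := weights_rat (M a)
      have h4 := coeff_eq_sum_multi hw (MvPolynomial.map (Int.castRingHom ℚ) (F a b))
        ((totalDegree_map_le' _ _).trans hdeg) (b := d a b) fun i =>
          not_lt.1 fun h6 => h5 ⟨i, h6⟩
      rw [MvPolynomial.coeff_map, eq_intCast] at h4
      have h6 := natAbs_le_of_sum (z := MvPolynomial.coeff (d a b) (F a b))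
        (w := fun t : Fin (n a) → Fin (M a + 1) => ∏ i, w (d a b i) (t i))
        (v := fun t => MvPolynomial.eval (fun i => ((t i : ℕ) : ℤ)) (F a b))
        (W := ((M a + 1) ^ M a) ^ n a)
        (V := 2 ^ V (a, b)) (h4.trans (sum_congr rfl fun t _ => by rw [eval_map_natCast]))
        (fun t => by
          rw [abs_prod]
          refine (prod_le_prod (fun i _ => abs_nonneg _) fun i _ => hw' _ (t i)).trans ?_
          simp) (fun t => ?_)
      · rw [Fintype.card_fun, Fintype.card_fin, Fintype.card_fin, ← mul_assoc, ← mul_pow,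
          ← pow_succ', ← pow_mul] at h6
        rw [pow_add]
        exact h6.trans (Nat.mul_le_mul_right _ (succ_pow_le_two_pow _ _))
      · obtain ⟨s, hs, hs'⟩ := exists_digs (B := M a + 1) (k := n a)
          (l := List.ofFn fun i => (t i : ℕ)) (by simp) (by
            intro x hx
            obtain ⟨i, rfl⟩ := List.mem_ofFn.1 hx
            exact (t i).2)
        have h7 := (h2 a (b, digs (M a + 1) (n a) s) hab).trans
          (Nat.pow_le_pow_right (by omega) (hV' (a, b) s hs))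
        rw [hs'] at h7
        simpa using h7

end Vale.Agent.P337
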