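import Vale.Agent.P337.CH.MC
import Vale.Agent.P337.SignCRT

/-!
The sign of a huge integer given by its residues is decidable in the counting hierarchy.
-/

namespace Vale.Agent.P337

open Vale.Agent.Lib.PolyTime Finset

variable {α β : Type*} [Enc α] [Enc β] {D : α → β → Prop} {f : α → β → ℤ}

protected theorem MC.exists_neg (hf : MC D f) :
    ∃ q : α × β → Prop, CHP q ∧ ∀ a b, D a b → (q (a, b) ↔ f a b < 0) := by
  classical
  obtain ⟨⟨T, hT, h1⟩, ⟨e, he, h2⟩⟩ := hf
  let hi : α × β → ℕ := fun x => 2 * (T x.1 + (e x + 3) + 2) ^ 2 + 1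
  have hhi : CHF hi := by
    simp only [hi]
    fun_prop
  have h3 : ZC (fun z : ((α × β) × ℕ) × ℕ => D z.1.1.1 z.1.1.2 ∧ T z.1.1.1 < z.2) (fun z => z.2)
      (fun z => ((2 : ℕ) : ZMod z.2) ^ z.1.2 * (f z.1.1.1 z.1.1.2 : ZMod z.2) *
        (∏ q ∈ range (hi z.1.1),
          ((if (T z.1.1.1 < q ∧ q.Prime) ∧ q ≠ z.2 then q else 1 : ℕ) : ZMod z.2)) ^ (z.2 - 2)) := by
    refine ZC.mul (ZC.mul (ZC.pow (by fun_prop) (ZC.natCast (by fun_prop)) (by fun_prop))
      (h1.comp (u := fun z : ((α × β) × ℕ) × ℕ => (z.1.1, z.2)) (by fun_prop)))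
      (ZC.pow (by fun_prop) (ZC.prod_range (by fun_prop) (by fun_prop) (ZC.natCast ?_))
        (by fun_prop))
    fun_prop
  obtain ⟨r, hr, hr'⟩ := h3
  let A : (α × β) × ℕ → ℕ := fun y => (∑ p ∈ range (hi y.1),
    if T y.1.1 < p ∧ p.Prime then 16 * hi y.1 * r (y, p) / p else 0) % (16 * hi y.1)
  have hA : CHF A := by
    simp only [A]
    fun_prop
  refine ⟨fun x => ∃ k, k < hi x * hi x + 1 ∧ ((8 * hi x ≤ A (x, k) ∧ A (x, k) < 15 * hi x) ∧
    ¬ ∃ j, j < k ∧ (hi x ≤ A (x, j) ∧ A (x, j) < 8 * hi x)), by fun_prop, fun a b hab => ?_⟩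
  have hS : ∀ p ∈ window (T a) (hi (a, b)), p.Prime := fun p hp => (mem_window.1 hp).2.2
  rw [sign_crt (window (T a) (hi (a, b))) hS (f a b) (hi (a, b)) (hi (a, b) * hi (a, b))
    (card_window_le _ _) (Nat.succ_pos _) ?_ (prod_window_le _ _)
    (fun k p => r (((a, b), k), p)) ?_ (fun k => A ((a, b), k)) ?_]
  · simp only [not_exists, not_and]
  · have h4 := two_pow_le_prod_window (T a) (e (a, b) + 3) (hi (a, b)) (Nat.lt_succ_self _)
    have h5 := h2 a b hab
    rw [pow_add] at h4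
    rw [Int.abs_eq_natAbs]
    norm_cast
    omega
  · intro k p hp
    refine fermat_residue (hS p hp) (not_dvd_prod_erase hS hp) _ ?_
    rw [hr' (((a, b), k), p) ⟨hab, (mem_window.1 hp).2.1⟩ (hS p hp)]
    have h4 : ∏ q ∈ (window (T a) (hi (a, b))).erase p, q =
        ∏ q ∈ range (hi (a, b)), if (T a < q ∧ q.Prime) ∧ q ≠ p then q else 1 := by
      rw [← prod_filter, ← filter_ne', window, filter_filter]
    rw [h4]
    push_cast
    rfl
  · intro k
    simp only [A, window, sum_filter]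

protected theorem MC.chp_neg (hf : MC D f) (hD : CHP (fun x : α × β => D x.1 x.2)) :
    CHP (fun x : α × β => D x.1 x.2 ∧ f x.1 x.2 < 0) := by
  obtain ⟨q, hq, hq'⟩ := hf.exists_neg
  exact (hD.and hq).congr fun x => and_congr_right fun h => hq' x.1 x.2 h

protected theorem MC.chp_neg' (hf : MC (fun _ _ => True) f) :
    CHP (fun x : α × β => f x.1 x.2 < 0) :=
  (hf.chp_neg (CHP.const True)).congr fun _ => by simp

end Vale.Agent.P337
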