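import Vale.Agent.P337.CH.Count
import Mathlib.Data.Int.NatAbs

/-!
Computations modulo a prime (`ZC`), and families of huge integers whose residues modulo large
primes are computable in the counting hierarchy (`MC`).
-/

namespace Vale.Agent.P337

open Vale.Agent.Lib.PolyTime Finset

variable {α α' β β' γ γ' : Type*} [Enc α] [Enc α'] [Enc β] [Enc β'] [Enc γ] [Enc γ']

/-! ### Residues modulo a prime -/

/-- A residue modulo the prime `p x` is computable on the domain `E`. -/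
def ZC (E : γ → Prop) (p : γ → ℕ) (F : (x : γ) → ZMod (p x)) : Prop :=
  ∃ g : γ → ℕ, CHF g ∧ ∀ x, E x → (p x).Prime → ((g x : ℕ) : ZMod (p x)) = F x

section ZC

variable {E E' : γ → Prop} {p : γ → ℕ} {F G : (x : γ) → ZMod (p x)}

protected theorem ZC.congr (hF : ZC E p F) (h : ∀ x, E' x → (p x).Prime → E x ∧ F x = G x) :
    ZC E' p G := by
  obtain ⟨g, hg, hg'⟩ := hF
  exact ⟨g, hg, fun x h1 h2 => (hg' x (h x h1 h2).1 h2).trans (h x h1 h2).2⟩

protected theorem ZC.comp (hF : ZC E p F) {u : γ' → γ} (hu : CHF u) :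
    ZC (fun y => E (u y)) (fun y => p (u y)) (fun y => F (u y)) := by
  obtain ⟨g, hg, hg'⟩ := hF
  exact ⟨_, hg.comp hu, fun y => hg' (u y)⟩

protected theorem ZC.natCast {f : γ → ℕ} (hf : CHF f) : ZC E p (fun x => (f x : ZMod (p x))) :=
  ⟨f, hf, fun _ _ _ => rfl⟩

protected theorem ZC.add (hF : ZC E p F) (hG : ZC E p G) : ZC E p (fun x => F x + G x) := by
  obtain ⟨f, hf, hf'⟩ := hF
  obtain ⟨g, hg, hg'⟩ := hG
  exact ⟨_, hf.add hg, fun x h1 h2 => by rw [Nat.cast_add, hf' x h1 h2, hg' x h1 h2]⟩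

protected theorem ZC.mul (hF : ZC E p F) (hG : ZC E p G) : ZC E p (fun x => F x * G x) := by
  obtain ⟨f, hf, hf'⟩ := hF
  obtain ⟨g, hg, hg'⟩ := hG
  exact ⟨_, hf.mul hg, fun x h1 h2 => by rw [Nat.cast_mul, hf' x h1 h2, hg' x h1 h2]⟩

protected theorem ZC.neg (hp : CHF p) (hF : ZC E p F) : ZC E p (fun x => - F x) := by
  refine ((ZC.natCast (f := fun x => p x - 1) (by fun_prop)).mul hF).congr fun x h1 h2 => ⟨h1, ?_⟩
  rw [Nat.cast_sub h2.pos, ZMod.natCast_self]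
  simp

protected theorem ZC.pow (hp : CHF p) (hF : ZC E p F) {k : γ → ℕ} (hk : CHF k) :
    ZC E p (fun x => F x ^ k x) := by
  obtain ⟨f, hf, hf'⟩ := hF
  exact ⟨fun x => powMod (f x) (k x) (p x), by fun_prop, fun x h1 h2 => by
    rw [cast_powMod h2.pos, hf' x h1 h2]⟩

protected theorem ZC.ite {q : γ → Prop} {inst : ∀ x, Decidable (q x)} (hq : CHP q)
    (hF : ZC (fun x => E x ∧ q x) p F) (hG : ZC (fun x => E x ∧ ¬ q x) p G) :
    ZC E p (fun x => @ite _ (q x) (inst x) (F x) (G x)) := by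
  obtain ⟨f, hf, hf'⟩ := hF
  obtain ⟨g, hg, hg'⟩ := hG
  refine ⟨fun x => @ite _ (q x) (inst x) (f x) (g x), by fun_prop, fun x h1 h2 => ?_⟩
  by_cases h : q x
  · simp only [if_pos h]
    exact hf' x ⟨h1, h⟩ h2
  · simp only [if_neg h]
    exact hg' x ⟨h1, h⟩ h2

protected theorem ZC.sum_range {m : γ → ℕ} (hm : CHF m) {H : (x : γ) → ℕ → ZMod (p x)}
    (hH : ZC (fun y : γ × ℕ => E y.1 ∧ y.2 < m y.1) (fun y => p y.1) (fun y => H y.1 y.2)) :
    ZC E p (fun x => ∑ s ∈ range (m x), H x s) := by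
  obtain ⟨f, hf, hf'⟩ := hH
  refine ⟨fun x => ∑ s ∈ range (m x), f (x, s), by fun_prop, fun x h1 h2 => ?_⟩
  rw [Nat.cast_sum]
  exact sum_congr rfl fun s hs => hf' (x, s) ⟨h1, mem_range.1 hs⟩ h2

protected theorem ZC.prod_range (hp : CHF p) {m : γ → ℕ} (hm : CHF m)
    {H : (x : γ) → ℕ → ZMod (p x)}
    (hH : ZC (fun y : γ × ℕ => E y.1 ∧ y.2 < m y.1) (fun y => p y.1) (fun y => H y.1 y.2)) :
    ZC E p (fun x => ∏ s ∈ range (m x), H x s) := by
  obtain ⟨f, hf, hf'⟩ := hH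
  obtain ⟨g, hg, hg'⟩ := CHF.exists_prod_mod (f := fun x s => f (x, s)) hf hm hp
  refine ⟨g, hg, fun x h1 h2 => ?_⟩
  rw [hg' x h2]
  exact prod_congr rfl fun s hs => hf' (x, s) ⟨h1, mem_range.1 hs⟩ h2

end ZC

/-! ### Bounds depending on the instance only -/

/-- On the domain `D`, the number `m a b` is bounded by a `CHF` function of `a`. -/
def EB (D : α → β → Prop) (m : α → β → ℕ) : Prop :=
  ∃ M : α → ℕ, CHF M ∧ ∀ a b, D a b → m a b ≤ M a

section EB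

variable {D : α → β → Prop} {m m' : α → β → ℕ}

omit [Enc β] in
protected theorem EB.of_le (M : α → ℕ) (hM : CHF M) (h : ∀ a b, D a b → m a b ≤ M a) : EB D m :=
  ⟨M, hM, h⟩

omit [Enc β] in
protected theorem EB.of_chf {M : α → ℕ} (hM : CHF M) : EB D (fun a _ => M a) :=
  ⟨M, hM, fun _ _ _ => le_rfl⟩

omit [Enc β] in
protected theorem EB.mono (hm : EB D m) (h : ∀ a b, D a b → m' a b ≤ m a b) : EB D m' := by
  obtain ⟨M, hM, hM'⟩ := hm
  exact ⟨M, hM, fun a b hab => (h a b hab).trans (hM' a b hab)⟩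

omit [Enc β] in
protected theorem EB.add (hm : EB D m) (hm' : EB D m') : EB D (fun a b => m a b + m' a b) := by
  obtain ⟨M, hM, h⟩ := hm
  obtain ⟨M', hM', h'⟩ := hm'
  exact ⟨_, hM.add hM', fun a b hab => add_le_add (h a b hab) (h' a b hab)⟩

omit [Enc β] in
protected theorem EB.mul (hm : EB D m) (hm' : EB D m') : EB D (fun a b => m a b * m' a b) := by
  obtain ⟨M, hM, h⟩ := hm
  obtain ⟨M', hM', h'⟩ := hm'
  exact ⟨_, hM.mul hM', fun a b hab => Nat.mul_le_mul (h a b hab) (h' a b hab)⟩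

end EB

/-- A `CHF` function is bounded in terms of its first argument if the second one is small. -/
protected theorem CHF.exists_bound' {e : α × β → ℕ} (he : CHF e) {k : α → ℕ} (hk : PBd k) :
    ∃ V : α → ℕ, CHF V ∧ ∀ a b, esize b ≤ k a → e (a, b) ≤ V a := by
  obtain ⟨c, hc⟩ := he.pbd
  obtain ⟨d, hd⟩ := hk
  refine ⟨fun a => 2 ^ pb c (2 * esize a + pb d (esize a) + 1), by fun_prop, fun a b hb => ?_⟩
  refine (lt_two_pow_esize _).le.trans (Nat.pow_le_pow_right (by omega) ?_)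
  refine (hc (a, b)).trans (pb_mono c ?_)
  rw [esize_pair]
  have := hd a
  omega

/-! ### Huge integers -/

/-- On the domain `D`, the residues of `f a b` modulo all primes above a threshold depending only
on `a` are computable in the counting hierarchy, and the binary length of `f a b` is bounded by a
`CHF` function. -/
structure MC (D : α → β → Prop) (f : α → β → ℤ) : Prop where
  res : ∃ T : α → ℕ, CHF T ∧ ZC (fun y : (α × β) × ℕ => D y.1.1 y.1.2 ∧ T y.1.1 < y.2)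
    (fun y => y.2) (fun y => (f y.1.1 y.1.2 : ZMod y.2))
  gro : ∃ e : α × β → ℕ, CHF e ∧ ∀ a b, D a b → (f a b).natAbs ≤ 2 ^ e (a, b)

variable {D D' : α → β → Prop} {f g : α → β → ℤ}

protected theorem MC.congr (hf : MC D f) (h : ∀ a b, D' a b → D a b ∧ f a b = g a b) :
    MC D' g := by
  obtain ⟨⟨T, hT, h1⟩, ⟨e, he, h2⟩⟩ := hf
  refine ⟨⟨T, hT, h1.congr fun y hy _ => ⟨⟨(h _ _ hy.1).1, hy.2⟩, by rw [(h _ _ hy.1).2]⟩⟩,
    ⟨e, he, fun a b hab => ?_⟩⟩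
  rw [← (h a b hab).2]
  exact h2 a b (h a b hab).1

protected theorem MC.mono (hf : MC D f) (h : ∀ a b, D' a b → D a b) : MC D' f :=
  hf.congr fun a b hab => ⟨h a b hab, rfl⟩

protected theorem MC.congr' (hf : MC D f) (h : ∀ a b, D a b → f a b = g a b) : MC D g :=
  hf.congr fun a b hab => ⟨hab, h a b hab⟩

protected theorem MC.comp (hf : MC D f) {u : α' → α} {v : α' → β' → β} (hu : CHF u)
    (hv : CHF (fun x : α' × β' => v x.1 x.2)) :
    MC (fun a b => D (u a) (v a b)) (fun a b => f (u a) (v a b)) := by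
  obtain ⟨⟨T, hT, h1⟩, ⟨e, he, h2⟩⟩ := hf
  refine ⟨⟨fun a => T (u a), by fun_prop,
    h1.comp (u := fun y : (α' × β') × ℕ => ((u y.1.1, v y.1.1 y.1.2), y.2)) ?_⟩,
    ⟨fun x => e (u x.1, v x.1 x.2), by fun_prop, fun a b hab => h2 _ _ hab⟩⟩
  have hv' : CHF (fun y : (α' × β') × ℕ => v y.1.1 y.1.2) := hv.comp (by fun_prop)
  fun_prop

protected theorem MC.natCast {h : α → β → ℕ} (hh : CHF (fun x : α × β => h x.1 x.2)) :
    MC D (fun a b => (h a b : ℤ)) := by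
  refine ⟨⟨fun _ => 0, by fun_prop, (ZC.natCast (E := fun _ => True)
    (hh.comp (f := fun y : (α × β) × ℕ => y.1) (by fun_prop))).congr
      fun y _ _ => ⟨trivial, by simp⟩⟩, ⟨_, hh, fun a b _ => ?_⟩⟩
  rw [Int.natAbs_natCast]
  exact Nat.lt_two_pow_self.le

private theorem res2 (hf : MC D f) (hg : MC D g) : ∃ T : α → ℕ, CHF T ∧
    ZC (fun y : (α × β) × ℕ => D y.1.1 y.1.2 ∧ T y.1.1 < y.2)
      (fun y => y.2) (fun y => (f y.1.1 y.1.2 : ZMod y.2)) ∧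
    ZC (fun y : (α × β) × ℕ => D y.1.1 y.1.2 ∧ T y.1.1 < y.2)
      (fun y => y.2) (fun y => (g y.1.1 y.1.2 : ZMod y.2)) := by
  obtain ⟨T, hT, h1⟩ := hf.res
  obtain ⟨T', hT', h2⟩ := hg.res
  exact ⟨fun a => T a + T' a, by fun_prop,
    h1.congr fun y hy _ => ⟨⟨hy.1, by have := hy.2; dsimp only at this; omega⟩, rfl⟩,
    h2.congr fun y hy _ => ⟨⟨hy.1, by have := hy.2; dsimp only at this; omega⟩, rfl⟩⟩

protected theorem MC.add (hf : MC D f) (hg : MC D g) : MC D (fun a b => f a b + g a b) := by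
  obtain ⟨T, hT, h1, h2⟩ := res2 hf hg
  obtain ⟨e, he, h3⟩ := hf.gro
  obtain ⟨e', he', h4⟩ := hg.gro
  refine ⟨⟨T, hT, (h1.add h2).congr fun y hy _ => ⟨hy, by simp⟩⟩,
    ⟨fun x => e x + e' x + 1, by fun_prop, fun a b hab => ?_⟩⟩
  have h5 : 2 ^ e (a, b) ≤ 2 ^ (e (a, b) + e' (a, b)) := Nat.pow_le_pow_right (by omega) (by omega)
  have h6 : 2 ^ e' (a, b) ≤ 2 ^ (e (a, b) + e' (a, b)) :=
    Nat.pow_le_pow_right (by omega) (by omega)
  have h7 := Int.natAbs_add_le (f a b) (g a b)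
  have h8 := h3 a b hab
  have h9 := h4 a b hab
  dsimp only
  rw [pow_succ]
  omega

protected theorem MC.mul (hf : MC D f) (hg : MC D g) : MC D (fun a b => f a b * g a b) := by
  obtain ⟨T, hT, h1, h2⟩ := res2 hf hg
  obtain ⟨e, he, h3⟩ := hf.gro
  obtain ⟨e', he', h4⟩ := hg.gro
  refine ⟨⟨T, hT, (h1.mul h2).congr fun y hy _ => ⟨hy, by simp⟩⟩,
    ⟨fun x => e x + e' x, by fun_prop, fun a b hab => ?_⟩⟩
  dsimp only
  rw [Int.natAbs_mul, pow_add]
  exact Nat.mul_le_mul (h3 a b hab) (h4 a b hab)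

protected theorem MC.neg (hf : MC D f) : MC D (fun a b => - f a b) := by
  obtain ⟨⟨T, hT, h1⟩, ⟨e, he, h2⟩⟩ := hf
  exact ⟨⟨T, hT, (h1.neg (by fun_prop)).congr fun y hy _ => ⟨hy, by simp⟩⟩,
    ⟨e, he, fun a b hab => by simpa using h2 a b hab⟩⟩

protected theorem MC.sub (hf : MC D f) (hg : MC D g) : MC D (fun a b => f a b - g a b) :=
  (hf.add hg.neg).congr' fun _ _ _ => (sub_eq_add_neg _ _).symm

protected theorem MC.pow (hf : MC D f) {k : α → β → ℕ} (hk : CHF (fun x : α × β => k x.1 x.2)) :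
    MC D (fun a b => f a b ^ k a b) := by
  obtain ⟨⟨T, hT, h1⟩, ⟨e, he, h2⟩⟩ := hf
  refine ⟨⟨T, hT, (h1.pow (by fun_prop) (hk.comp (f := fun y : (α × β) × ℕ => y.1)
    (by fun_prop))).congr fun y hy _ => ⟨hy, by simp⟩⟩,
    ⟨fun x => e x * k x.1 x.2, he.mul hk, fun a b hab => ?_⟩⟩
  dsimp only
  rw [Int.natAbs_pow, pow_mul]
  exact Nat.pow_le_pow_left (h2 a b hab) _

protected theorem MC.ite {q : α → β → Prop} {inst : ∀ a b, Decidable (q a b)}
    (hq : CHP (fun x : α × β => q x.1 x.2)) (hf : MC (fun a b => D a b ∧ q a b) f)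
    (hg : MC (fun a b => D a b ∧ ¬ q a b) g) :
    MC D (fun a b => @ite _ (q a b) (inst a b) (f a b) (g a b)) := by
  obtain ⟨⟨T, hT, h1⟩, ⟨e, he, h3⟩⟩ := hf
  obtain ⟨⟨T', hT', h2⟩, ⟨e', he', h4⟩⟩ := hg
  refine ⟨⟨fun a => T a + T' a, by fun_prop, (ZC.ite (q := fun y : (α × β) × ℕ => q y.1.1 y.1.2)
    (inst := fun y => inst _ _) (hq.comp (f := fun y : (α × β) × ℕ => y.1) (by fun_prop))
    (E := fun y : (α × β) × ℕ => D y.1.1 y.1.2 ∧ T y.1.1 + T' y.1.1 < y.2)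
    (h1.congr fun y hy _ => ⟨⟨⟨hy.1.1, hy.2⟩, by have := hy.1.2; omega⟩, rfl⟩)
    (h2.congr fun y hy _ => ⟨⟨⟨hy.1.1, hy.2⟩, by have := hy.1.2; omega⟩, rfl⟩)).congr
      fun y hy _ => ⟨hy, by split_ifs <;> rfl⟩⟩,
    ⟨fun x => e x + e' x, by fun_prop, fun a b hab => ?_⟩⟩
  dsimp only
  split_ifs with h
  · exact (h3 a b ⟨hab, h⟩).trans (Nat.pow_le_pow_right (by omega) (by omega))
  · exact (h4 a b ⟨hab, h⟩).trans (Nat.pow_le_pow_right (by omega) (by omega))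

protected theorem MC.intCast {h : α → β → ℤ} (hh : CHF (fun x : α × β => h x.1 x.2)) :
    MC D h :=
  ((MC.natCast (h := fun a b => (h a b).toNat) hh.toNat).sub
    (MC.natCast (h := fun a b => (- h a b).toNat) hh.intNeg.toNat)).congr' fun a b _ => by omega

protected theorem MC.const (z : ℤ) : MC D (fun _ _ => z) := MC.intCast (by fun_prop)

private theorem range_aux {m : α → β → ℕ} (hm : CHF (fun x : α × β => m x.1 x.2))
    {F : α → β → ℕ → ℤ}
    (hF : MC (fun a (x : β × ℕ) => D a x.1 ∧ x.2 < m a x.1) (fun a x => F a x.1 x.2)) :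
    (∃ T : α → ℕ, CHF T ∧ ZC (fun z : ((α × β) × ℕ) × ℕ =>
      (D z.1.1.1 z.1.1.2 ∧ T z.1.1.1 < z.1.2) ∧ z.2 < m z.1.1.1 z.1.1.2) (fun z => z.1.2)
      (fun z => (F z.1.1.1 z.1.1.2 z.2 : ZMod z.1.2))) ∧
    ∃ V : α × β → ℕ, CHF V ∧ ∀ a b, D a b → ∀ s < m a b, (F a b s).natAbs ≤ 2 ^ V (a, b) := by
  obtain ⟨⟨T, hT, h1⟩, ⟨e, he, h2⟩⟩ := hF
  refine ⟨⟨T, hT, (h1.comp (u := fun z : ((α × β) × ℕ) × ℕ => ((z.1.1.1, (z.1.1.2, z.2)), z.1.2))
    (by fun_prop)).congr fun z hz _ => ⟨⟨⟨hz.1.1, hz.2⟩, hz.1.2⟩, rfl⟩⟩, ?_⟩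
  obtain ⟨V, hV, hV'⟩ := CHF.exists_bound (f := fun (x : α × β) s => e (x.1, (x.2, s)))
    (by fun_prop) hm
  exact ⟨V, hV, fun a b hab s hs => (h2 a (b, s) ⟨hab, hs⟩).trans
    (Nat.pow_le_pow_right (by omega) (hV' (a, b) s hs))⟩

protected theorem MC.sum_range {m : α → β → ℕ} (hm : CHF (fun x : α × β => m x.1 x.2))
    {F : α → β → ℕ → ℤ}
    (hF : MC (fun a (x : β × ℕ) => D a x.1 ∧ x.2 < m a x.1) (fun a x => F a x.1 x.2)) :
    MC D (fun a b => ∑ s ∈ range (m a b), F a b s) := by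
  obtain ⟨⟨T, hT, h1⟩, ⟨V, hV, h2⟩⟩ := range_aux hm hF
  refine ⟨⟨T, hT, (ZC.sum_range (m := fun y : (α × β) × ℕ => m y.1.1 y.1.2)
    (hm.comp (f := fun y : (α × β) × ℕ => y.1) (by fun_prop))
    (H := fun y s => (F y.1.1 y.1.2 s : ZMod y.2)) h1).congr fun y hy _ => ⟨hy, by simp⟩⟩,
    ⟨fun x => m x.1 x.2 + V x, hm.add hV, fun a b hab => ?_⟩⟩
  refine (Int.natAbs_sum_le _ _).trans ?_
  refine (sum_le_card_nsmul _ _ _ fun s hs => h2 a b hab s (mem_range.1 hs)).trans ?_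
  rw [card_range, smul_eq_mul, pow_add]
  exact Nat.mul_le_mul_right _ Nat.lt_two_pow_self.le

protected theorem MC.prod_range {m : α → β → ℕ} (hm : CHF (fun x : α × β => m x.1 x.2))
    {F : α → β → ℕ → ℤ}
    (hF : MC (fun a (x : β × ℕ) => D a x.1 ∧ x.2 < m a x.1) (fun a x => F a x.1 x.2)) :
    MC D (fun a b => ∏ s ∈ range (m a b), F a b s) := by
  obtain ⟨⟨T, hT, h1⟩, ⟨V, hV, h2⟩⟩ := range_aux hm hF
  refine ⟨⟨T, hT, (ZC.prod_range (by fun_prop) (m := fun y : (α × β) × ℕ => m y.1.1 y.1.2)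
    (hm.comp (f := fun y : (α × β) × ℕ => y.1) (by fun_prop))
    (H := fun y s => (F y.1.1 y.1.2 s : ZMod y.2)) h1).congr fun y hy _ => ⟨hy, by simp⟩⟩,
    ⟨fun x => V x * m x.1 x.2, hV.mul hm, fun a b hab => ?_⟩⟩
  have e : (∏ s ∈ range (m a b), F a b s).natAbs = ∏ s ∈ range (m a b), (F a b s).natAbs :=
    map_prod Int.natAbsHom _ _
  rw [e]
  refine (prod_le_pow_card _ _ _ fun s hs => h2 a b hab s (mem_range.1 hs)).trans ?_
  rw [card_range, pow_mul]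

protected theorem MC.factorial {k : α → β → ℕ} (hk : CHF (fun x : α × β => k x.1 x.2)) :
    MC D (fun a b => ((k a b).factorial : ℤ)) :=
  (MC.prod_range hk (F := fun _ _ s => ((s + 1 : ℕ) : ℤ)) (MC.natCast (by fun_prop))).congr'
    fun a b _ => by rw [← Nat.cast_prod, prod_range_add_one_eq_factorial]

protected theorem MC.descFactorial {k l : α → β → ℕ} (hk : CHF (fun x : α × β => k x.1 x.2))
    (hl : CHF (fun x : α × β => l x.1 x.2)) :
    MC D (fun a b => ((k a b).descFactorial (l a b) : ℤ)) :=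
  (MC.prod_range hl (F := fun a b s => ((k a b - s : ℕ) : ℤ)) (MC.natCast
    ((hk.comp (f := fun x : α × β × ℕ => (x.1, x.2.1)) (by fun_prop)).sub
      (by fun_prop)))).congr'
    fun a b _ => by rw [← Nat.cast_prod, Nat.descFactorial_eq_prod_range]

/-- The doubly exponential bound for a family indexed by small parameters. -/
protected theorem MC.exists_bound (hf : MC D f) {k : α → ℕ} (hk : PBd k)
    (h : ∀ a b, D a b → esize b ≤ k a) :
    ∃ V : α → ℕ, CHF V ∧ ∀ a b, D a b → (f a b).natAbs ≤ 2 ^ V a := by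
  obtain ⟨e, he, h2⟩ := hf.gro
  obtain ⟨V, hV, hV'⟩ := he.exists_bound' hk
  exact ⟨V, hV, fun a b hab => (h2 a b hab).trans
    (Nat.pow_le_pow_right (by omega) (hV' a b (h a b hab)))⟩

end Vale.Agent.P337
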