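import Vale.Agent.P337.CH.Alg
import Vale.Agent.P337.CH.Sign
import Vale.Agent.P337.Core
import Vale.Agent.P337.StepA

/-!
The existence of a real zero of a nonnegative polynomial is decidable in the counting hierarchy.
-/

namespace Vale.Agent.P337

open Vale.Agent.Lib.PolyTime Finset MvPolynomial

variable {α β : Type*} [Enc α] [Enc β]

theorem abs_le_of_natAbs_le {z : ℤ} {M : ℕ} (h : z.natAbs ≤ M) : |z| ≤ (M : ℤ) := by
  rw [Int.abs_eq_natAbs]
  exact_mod_cast h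

/-- All coefficients of an `MR` family of integer polynomials with small index are bounded. -/
theorem exists_coeff_bound {F : α → ℕ → Polynomial ℤ}
    (hF : MR1 (R := fun _ => Polynomial ℤ) F) {N : α → ℕ} (hN : CHF N) :
    ∃ V : α → ℕ, CHF V ∧ ∀ a, ∀ k ≤ N a, ∀ j, ((F a k).coeff j).natAbs ≤ 2 ^ V a := by
  obtain ⟨M, hM, hM'⟩ := hF.natDegree
  have h1 : MC (fun a (x : ℕ × ℕ) => x.1 ≤ N a ∧ x.2 ≤ M a) (fun a x => (F a x.1).coeff x.2) :=
    (MR.polyCoeff (R := fun _ => ℤ) (hF.at (by fun_prop)) (by fun_prop)).toMC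
  obtain ⟨V, hV, hV'⟩ := h1.exists_bound (k := fun a => 2 * esize (N a) + esize (M a) + 1)
    (by fun_prop) fun a x hx => by
      have h2 := esize_nat_mono hx.1
      have h3 := esize_nat_mono hx.2
      have h4 := esize_pair x.1 x.2
      change esize (x.1, x.2) ≤ _
      omega
  refine ⟨V, hV, fun a k hk j => ?_⟩
  by_cases hj : j ≤ M a
  · exact hV' a (k, j) ⟨hk, hj⟩
  · rw [Polynomial.coeff_eq_zero_of_natDegree_lt ((hM' a k trivial).trans_lt (not_le.1 hj))]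
    simp

theorem core_CHP {n s : α → ℕ} (hn : CHF n) (hnb : PBd n) (hs : CHF s)
    {Q : (a : α) → MvPolynomial (Fin (n a)) ℤ}
    (hQ : MR0 (R := fun a => MvPolynomial (Fin (n a)) ℤ) Q)
    (hdeg : ∀ a, (Q a).totalDegree ≤ s a) (hpos : ∀ a (x : Fin (n a) → ℝ), 0 ≤ aeval x (Q a)) :
    CHP (fun a => ∃ x : Fin (n a) → ℝ, aeval x (Q a) = 0) := by
  obtain ⟨e, he, heo, hes⟩ : ∃ e : α → ℕ, CHF e ∧ (∀ a, Odd (e a)) ∧ ∀ a, s a ≤ e a :=
    ⟨fun a => 2 * s a + 1, by fun_prop, fun a => odd_two_mul_add_one _, fun a => by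
      dsimp only
      omega⟩
  have hD : CHF (fun a => e a ^ n a) := by fun_prop
  -- the bounds for the polynomials in the parameter
  have hQT : MR0 (R := fun a => MvPolynomial (Fin (n a)) (Polynomial ℤ))
      (fun a => map Polynomial.C (Q a)) := MR_map_int hQ fun _ => Polynomial.C
  have hX : MR0 (R := fun _ : α => Polynomial ℤ) (fun _ => Polynomial.X) :=
    MR.polyX (R := fun _ => ℤ)
  have hrT := MR_rr hn hnb hX hQT
  obtain ⟨V1, hV1, hV1'⟩ := exists_coeff_bound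
    (F := fun a k => epsT (e a) (e a ^ n a * (e a + 1)) (Q a) k)
    (MR_EE hn hnb he (by fun_prop) hrT (MR_hh hn he hX hQT).inst (by fun_prop)) hD
  obtain ⟨V2, hV2, hV2'⟩ := exists_coeff_bound
    (F := fun a _ => delT (e a) (e a ^ n a * (n a * e a)) (Q a))
    (MR_EE hn hnb he (by fun_prop) hrT (MR_jac hn hnb he hrT).inst
      (k := fun a _ => e a ^ Fintype.card (Fin (n a))) (by simp only [Fintype.card_fin]; fun_prop))
    (CHF.const 0)
  -- the parameters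
  obtain ⟨ρ, hρ⟩ : ∃ ρ : α → ℕ, ∀ a, ρ a = 2 ^ (V1 a + V2 a) + 1 := ⟨_, fun _ => rfl⟩
  obtain ⟨t, ht⟩ : ∃ t : α → ℕ, ∀ a,
    t a = 2 ^ (V1 a + V2 a) * (e a ^ n a + 1) * (2 * ρ a) ^ (e a ^ n a) + 1 := ⟨_, fun _ => rfl⟩
  have hM1 : MC (fun _ (_ : Unit) => True) (fun a _ => (2 : ℤ) ^ (V1 a + V2 a)) :=
    (MC.const 2).pow (by fun_prop)
  have hρ' : MC (fun _ (_ : Unit) => True) (fun a _ => (ρ a : ℤ)) :=
    (hM1.add (MC.const 1)).congr' fun a _ _ => by rw [hρ]; push_cast; rfl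
  have ht' : MC (fun _ (_ : Unit) => True) (fun a _ => (t a : ℤ)) :=
    (((hM1.mul (MC.natCast (h := fun a _ => e a ^ n a + 1) (by fun_prop))).mul
      (((MC.const 2).mul hρ').pow (k := fun a _ => e a ^ n a) (by fun_prop))).add
      (MC.const 1)).congr' fun a _ _ => by rw [ht]; push_cast; rfl
  have hr := MR_rr (R := fun _ => ℤ) hn hnb ht'.toMR hQ
  have hh0 : MR0 (R := fun a => MvPolynomial (Fin (n a)) ℤ)
      (fun a => hzero (e a) (ρ a : ℤ) (t a : ℤ) (Q a)) :=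
    MR.sub (MR.mvC hρ'.toMR) (MR_hh hn he ht'.toMR hQ)
  have hb := MR_base hn hnb he hD hr hh0
  have h3 : MC (fun a (x : ℕ × ℕ) => x.1 ≤ n a * (e a ^ n a + 1) + 1 ∧ x.2 ≤ e a ^ n a)
      (fun a x => EE (e a) (e a ^ n a * (e a ^ n a + (e a + 1))) (rr (t a : ℤ) (Q a))
        (base (e a) (e a ^ n a) (rr (t a : ℤ) (Q a))
          (hzero (e a) (ρ a : ℤ) (t a : ℤ) (Q a)) x.1) x.2) :=
    (MR_EE hn hnb he (by fun_prop) hr (hb.at (by fun_prop)) (by fun_prop)).toMC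
  obtain ⟨V3, hV3, hV3'⟩ := h3.exists_bound
    (k := fun a => 2 * esize (n a * (e a ^ n a + 1) + 1) + esize (e a ^ n a) + 1)
    (by fun_prop) fun a x hx => by
      have h2 := esize_nat_mono hx.1
      have h3 := esize_nat_mono hx.2
      have h4 := esize_pair x.1 x.2
      change esize (x.1, x.2) ≤ _
      omega
  have hL : MR0 (R := fun a => MvPolynomial (Fin (n a)) ℤ)
      (fun a => ((2 * (2 ^ V3 a + 1) : ℕ) : MvPolynomial (Fin (n a)) ℤ)) :=
    MR.natCast (((MC.const 2).mul (((MC.const 2).pow (k := fun a _ => V3 a) (by fun_prop)).add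
      (MC.const 1))).congr' fun a _ _ => by push_cast; rfl)
  have h4 := (MR_EE (D := fun _ (_ : ℕ × ℕ) => True) hn hnb he
    (K := fun a => e a ^ n a * ((e a ^ n a).size * (2 * (e a ^ n a).size) * (2 * V3 a + 4 + 1) *
      (e a ^ n a + (e a + 1)))) (by fun_prop) hr
    (MR_GC (B := fun a => 2 * V3 a + 4) (m := fun a => (e a ^ n a).size) (by fun_prop)
      (by fun_prop) (by fun_prop) hD (q := fun a => 4 * (n a * (e a ^ n a + 1) + 1))
      (by fun_prop) hL hb (c := fun _ x => x.2) (z := fun _ x => x.1) (by fun_prop) (by fun_prop))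
    (k := fun a _ => e a ^ n a) (by fun_prop)).toMC.chp_neg'
  obtain ⟨q, hq, hq'⟩ : ∃ q : α → ℕ → ℕ → Prop, CHP (fun x : α × ℕ × ℕ => q x.1 x.2.1 x.2.2) ∧
      ∀ a N c, q a N c ↔ EE (e a) (e a ^ n a * ((e a ^ n a).size * (2 * (e a ^ n a).size) *
        (2 * V3 a + 4 + 1) * (e a ^ n a + (e a + 1)))) (rr (t a : ℤ) (Q a))
        (GC (2 * V3 a + 4) (e a ^ n a).size (e a ^ n a) (4 * (n a * (e a ^ n a + 1) + 1)) N c
          ((2 * (2 ^ V3 a + 1) : ℕ) : MvPolynomial (Fin (n a)) ℤ)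
          (base (e a) (e a ^ n a) (rr (t a : ℤ) (Q a)) (hzero (e a) (ρ a : ℤ) (t a : ℤ) (Q a))))
        (e a ^ n a) < 0 := ⟨_, h4, fun _ _ _ => Iff.rfl⟩
  refine (CHP.exists_lt (m := fun a => (4 * (n a * (e a ^ n a + 1) + 1)) ^ (e a ^ n a).size)
    (p := fun a N => ∃ c, c < e a ^ n a + 1 ∧ q a N c)
    (CHP.exists_lt (m := fun x : α × ℕ => e x.1 ^ n x.1 + 1) (p := fun x c => q x.1 x.2 c)
      (hq.comp (f := fun y : (α × ℕ) × ℕ => (y.1.1, y.1.2, y.2)) (by fun_prop)) (by fun_prop))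
    (by fun_prop)).congr fun a => ?_
  simp only [hq']
  refine (core (M1 := 2 ^ (V1 a + V2 a)) (M2 := 2 ^ V3 a) (heo a) ((hdeg a).trans (hes a))
    (hpos a) le_rfl le_rfl (fun k hk j => abs_le_of_natAbs_le ((hV1' a k hk j).trans
      (Nat.pow_le_pow_right (by omega) (by omega))))
    (fun j => abs_le_of_natAbs_le ((hV2' a 0 le_rfl j).trans
      (Nat.pow_le_pow_right (by omega) (by omega)))) (hρ a).ge (ht a).ge (Nat.le_add_left _ _)
    (Nat.le_add_right _ _) le_rfl le_rfl le_rfl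
    (fun j hj k hk => abs_le_of_natAbs_le (hV3' a (j, k) ⟨hj.le, hk⟩)) le_rfl ?_
    (Nat.lt_size_self _)).symm
  have h5 : 1 ≤ 2 ^ V3 a := Nat.one_le_two_pow
  have h6 : 2 ^ (2 * V3 a + 4) = 16 * (2 ^ V3 a * 2 ^ V3 a) := by ring
  rw [h6]
  nlinarith

/-! ### The polynomial of step A -/

theorem MR_polyA : MR0 (R := fun a => MvPolynomial (Fin (nA a)) ℤ) polyA := by
  have hn := CHF_nA
  refine ⟨?_, sA, CHF_sA, fun a _ _ => ⟨totalDegree_polyA_le a, fun _ => trivial⟩⟩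
  have h1 : MC (fun (_ : Un × List LPoly × List ℕ) (_ : Unit × List ℕ × Unit) => True)
      (fun a x => PAe a.1.v a.2.1 a.2.2 fun i => ((x.2.1.getD i 0 : ℕ) : ℤ)) := by
    unfold PAe
    refine MC.sum_range (by fun_prop) (MC.pow ?_ (CHF.const 2))
    have hv : ∀ E, MC E (fun (a : Un × List LPoly × List ℕ) (y : (Unit × List ℕ × Unit) × ℕ) =>
        rawEval a.1.v (a.2.1.getD y.2 []) fun i => ((y.1.2.1.getD i 0 : ℕ) : ℤ)) := by
      intro E
      unfold rawEval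
      exact MC.sum_range (by fun_prop) (MC.mul (MC.intCast (by simp only [Int.cast_id]; fun_prop))
        (MC.prod_range (by fun_prop) (MC.pow (MC.natCast (by fun_prop)) (by fun_prop))))
    have hy : ∀ E, MC E (fun (a : Un × List LPoly × List ℕ) (y : (Unit × List ℕ × Unit) × ℕ) =>
        ((y.1.2.1.getD (a.1.v + y.2) 0 : ℕ) : ℤ) ^ 2) := fun E =>
      MC.pow (MC.natCast (by fun_prop)) (CHF.const 2)
    unfold tm
    exact MC.ite (by fun_prop) (hv _) (MC.ite (by fun_prop) (((hv _).mul (hy _)).sub (MC.const 1))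
      (MC.ite (by fun_prop) (((hv _).mul (hy _)).add (MC.const 1)) (MC.const 1)))
  refine h1.congr' fun a x _ => ?_
  refine (aeval_PA (K := ℤ) _ (le_nA a) (fun i => ((x.2.1.getD i 0 : ℕ) : ℤ)) _
    fun _ => rfl).symm.trans ?_
  rw [aeval_def, algebraMap_int_eq, RingHom.ext_int (Int.castRingHom ℤ) (RingHom.id ℤ)]
  rfl

/-- Satisfiability of sign conditions is decidable in the counting hierarchy. -/
theorem CHP_signFeas : CHP SignFeas :=
  CHP_signFeas_of (core_CHP CHF_nA PBd_nA CHF_sA MR_polyA totalDegree_polyA_le aeval_polyA_nonneg)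

end Vale.Agent.P337
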