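import Vale.Agent.P337.CH.CHF

/-!
Counting, bounded quantifiers, exponentially long sums, search, and exponentially long products
modulo a prime in the class `CHF`.
-/

namespace Vale.Agent.P337

open Vale.Agent.Lib.PolyTime Finset

variable {α β γ δ : Type*} [Enc α] [Enc β] [Enc γ] [Enc δ]

protected theorem CHP.lt_cnt {f : α → ℕ → Bool} {m θ : α → ℕ} (hf : CHF (fun x : α × ℕ => f x.1 x.2))
    (hm : CHF m) (hθ : CHF θ) : CHP (fun a => θ a < cnt (m a) (f a)) := by
  obtain ⟨A, hA, ⟨F, hF, hF'⟩, ⟨M, hM, hM'⟩, ⟨T, hT, hT'⟩⟩ :=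
    orF_exists (hf.ev.and (hm.ev.and hθ.ev))
  let L : Set Word := {x | val (T x) < cnt (val (M x)) fun s => hd (F (pr x s.bits))}
  have hL : L ∈ PP A :=
    thr_mem_PP (f := fun z => hd (F (pr z.1.w z.2.bits))) (m := fun x => val (M x.w))
      (θ := fun x => val (T x.w)) (PT.rawHd (PT_ofFP hF (PT_toRaw PT.id)))
      (PT.rawVal (PT_ofFP hM PT.id)) (PT.rawVal (PT_ofFP hT PT.id)) fun x => Iff.rfl
  refine ⟨L, mem_CH_of_PP hA hL, (PT_of_FP_chi FP.oracle (PT_toRaw PT.id)).congr fun a => ?_⟩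
  refine decide_eq_decide.2 ?_
  have e : (fun s : ℕ => hd (F (pr (enc a) s.bits))) = f a := by
    funext s
    have := hF' (a, s)
    rw [enc_pair, enc_nat] at this
    rw [this]
    rfl
  change val (T (enc a)) < cnt (val (M (enc a))) (fun s => hd (F (pr (enc a) s.bits))) ↔ _
  rw [e, hT', hM', val_enc_nat, val_enc_nat]

/-- Binary search. -/
protected theorem CHF.of_lt {h M : α → ℕ} (hM : CHF M) (hb : ∀ a, h a ≤ M a)
    (hh : CHP (fun x : α × ℕ => x.2 < h x.1)) : CHF h := by
  have hle : CHP (fun x : α × ℕ => x.2 ≤ h x.1) := by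
    have h1 : CHP (fun x : α × ℕ => x.2 = 0 ∨ x.2 - 1 < h x.1) :=
      CHP.or (by fun_prop) (hh.comp (f := fun x : α × ℕ => (x.1, x.2 - 1)) (by fun_prop))
    exact h1.congr fun x => by omega
  let step : α → ℕ → ℕ → ℕ := fun a j q =>
    if (2 * q + 1) * 2 ^ ((M a).size - j - 1) ≤ h a then 2 * q + 1 else 2 * q
  have hstep : CHF (fun p : α × ℕ × ℕ => step p.1 p.2.1 p.2.2) := by
    refine CHF.ite (hle.comp (f := fun p : α × ℕ × ℕ =>
      (p.1, (2 * p.2.2 + 1) * 2 ^ ((M p.1).size - p.2.1 - 1))) ?_) ?_ ?_ <;> fun_prop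
  have key : ∀ a j, j ≤ (M a).size →
      Nat.rec (motive := fun _ => ℕ) 0 (step a) j = h a / 2 ^ ((M a).size - j) := by
    intro a j
    induction j with
    | zero =>
      intro _
      have : h a < 2 ^ (M a).size := (hb a).trans_lt (Nat.lt_size_self _)
      simp [Nat.div_eq_of_lt this]
    | succ j ih =>
      intro hj
      have e : (M a).size - j = ((M a).size - j - 1) + 1 := by omega
      have e' : (M a).size - (j + 1) = (M a).size - j - 1 := by omega
      change step a j _ = _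
      rw [ih (by omega), e']
      simp only [step]
      generalize hk : (M a).size - j - 1 = k at *
      rw [e, pow_succ, ← Nat.div_div_eq_div_mul]
      have hpos : 0 < 2 ^ k := by positivity
      split_ifs with hc
      · rw [← Nat.le_div_iff_mul_le hpos] at hc
        omega
      · rw [← Nat.le_div_iff_mul_le hpos] at hc
        omega
  refine (CHF.natRec (k := fun a => (M a).size) (init := fun _ => 0) (step := step) (by fun_prop)
    (by fun_prop) (by fun_prop) hstep (b := fun a => esize (M a)) (by fun_prop)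
    fun a j hj => ?_).congr fun a => ?_
  · rw [key a j hj]
    exact esize_nat_mono ((Nat.div_le_self _ _).trans (hb a))
  · rw [key a _ le_rfl]
    simp

protected theorem CHF.cnt {f : α → ℕ → Bool} {m : α → ℕ} (hf : CHF (fun x : α × ℕ => f x.1 x.2))
    (hm : CHF m) : CHF (fun a => cnt (m a) (f a)) :=
  CHF.of_lt hm (fun _ => cnt_le _ _)
    (CHP.lt_cnt (f := fun (x : α × ℕ) s => f x.1 s) (m := fun x => m x.1) (θ := fun x => x.2)
      (hf.comp (f := fun y : (α × ℕ) × ℕ => (y.1.1, y.2)) (by fun_prop)) (by fun_prop)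
      (by fun_prop))

protected theorem CHF.card_filter {p : α → ℕ → Prop} [∀ a, DecidablePred (p a)] {m : α → ℕ}
    (hp : CHP (fun x : α × ℕ => p x.1 x.2)) (hm : CHF m) :
    CHF (fun a => ((range (m a)).filter (p a)).card) :=
  (CHF.cnt (f := fun a s => decide (p a s)) (CHF.decide hp) hm).congr fun a => by
    simp [cnt]

@[fun_prop]
protected theorem CHP.exists_lt {p : α → ℕ → Prop} {m : α → ℕ} (hp : CHP (fun x : α × ℕ => p x.1 x.2))
    (hm : CHF m) : CHP (fun a => ∃ s, s < m a ∧ p a s) := by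
  classical
  refine (CHP.lt (CHF.const 0) (CHF.card_filter hp hm)).congr fun a => ?_
  rw [card_pos, filter_nonempty_iff]
  simp

protected theorem CHP.forall_lt {p : α → ℕ → Prop} {m : α → ℕ} (hp : CHP (fun x : α × ℕ => p x.1 x.2))
    (hm : CHF m) : CHP (fun a => ∀ s, s < m a → p a s) :=
  (CHP.exists_lt (p := fun a s => ¬ p a s) hp.not hm).not.congr fun a => by simp

/-- A function with values below `M` whose graph is `CHP`. -/
protected theorem CHF.of_graph {h M : α → ℕ} (hM : CHF M) (hb : ∀ a, h a ≤ M a)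
    (hh : CHP (fun x : α × ℕ => x.2 = h x.1)) : CHF h := by
  refine CHF.of_lt hM hb ((CHP.exists_lt (m := fun x : α × ℕ => M x.1 + 1)
    (p := fun (x : α × ℕ) s => x.2 < s ∧ s = h x.1) (CHP.and (by fun_prop)
      (hh.comp (f := fun y : (α × ℕ) × ℕ => (y.1.1, y.2)) (by fun_prop)))
        (by fun_prop)).congr fun x => ?_)
  have := hb x.1
  constructor
  · rintro ⟨s, -, h1, rfl⟩
    exact h1
  · intro h1
    exact ⟨_, by omega, h1, rfl⟩

theorem card_filter_div_mod (m V : ℕ) (f : ℕ → ℕ) (hf : ∀ s < m, f s ≤ V) :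
    ((range (m * V)).filter fun t => t % V < f (t / V)).card = ∑ s ∈ range m, f s := by
  induction m with
  | zero => simp
  | succ m ih =>
    rw [sum_range_succ, ← ih fun s hs => hf s (by omega), Nat.succ_mul, range_add_eq_union,
      filter_union, card_union_of_disjoint]
    · congr 1
      rw [filter_map, card_map]
      have : (range V).filter ((fun t => t % V < f (t / V)) ∘ addLeftEmbedding (m * V)) =
          range (f m) := by
        ext t
        have h1 := hf m (by omega)
        simp only [mem_filter, mem_range, Function.comp, addLeftEmbedding_apply]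
        constructor
        · rintro ⟨h2, h3⟩
          rwa [Nat.mul_add_mod_of_lt h2, Nat.add_comm, Nat.add_mul_div_right _ _ (by omega),
            Nat.div_eq_of_lt h2, Nat.zero_add] at h3
        · intro h2
          have h3 : t < V := by omega
          refine ⟨h3, ?_⟩
          rwa [Nat.mul_add_mod_of_lt h3, Nat.add_comm, Nat.add_mul_div_right _ _ (by omega),
            Nat.div_eq_of_lt h3, Nat.zero_add]
      rw [this, card_range]
    · exact disjoint_filter_filter (disjoint_range_addLeftEmbedding _ _)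

/-- A function of `a` and `s < m a` is bounded by a `CHF` function of `a`. -/
protected theorem CHF.exists_bound {f : α → ℕ → ℕ} {m : α → ℕ} (hf : CHF (fun x : α × ℕ => f x.1 x.2))
    (hm : CHF m) : ∃ V : α → ℕ, CHF V ∧ ∀ a, ∀ s < m a, f a s ≤ V a := by
  obtain ⟨c, hc⟩ := hf.pbd
  refine ⟨fun a => 2 ^ pb c (2 * esize a + esize (m a) + 1),
    by fun_prop, fun a s hs => ?_⟩
  refine (lt_two_pow_esize _).le.trans (Nat.pow_le_pow_right (by omega) ?_)
  refine (hc (a, s)).trans (pb_mono c ?_)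
  rw [esize_pair]
  have := esize_nat_mono hs.le
  omega

@[fun_prop]
protected theorem CHF.sum_range {f : α → ℕ → ℕ} {m : α → ℕ} (hf : CHF (fun x : α × ℕ => f x.1 x.2))
    (hm : CHF m) : CHF (fun a => ∑ s ∈ range (m a), f a s) := by
  obtain ⟨V, hV, hV'⟩ := hf.exists_bound hm
  refine (CHF.card_filter (p := fun a t => t % V a < f a (t / V a)) (m := fun a => m a * V a)
    (CHP.lt (by fun_prop) (hf.comp (f := fun x : α × ℕ => (x.1, x.2 / V x.1)) (by fun_prop)))
    (by fun_prop)).congr fun a => card_filter_div_mod _ _ _ (hV' a)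

open Classical in
/-- The least `s < m` with `p s` (and `0` if there is none). -/
noncomputable def least (m : ℕ) (p : ℕ → Prop) : ℕ :=
  if h : ∃ s, s < m ∧ p s then Nat.find h else 0

theorem least_spec {m : ℕ} {p : ℕ → Prop} (h : ∃ s, s < m ∧ p s) :
    least m p < m ∧ p (least m p) := by
  classical
  unfold least
  rw [dif_pos h]
  exact Nat.find_spec h

theorem least_le (m : ℕ) (p : ℕ → Prop) : least m p ≤ m := by
  by_cases h : ∃ s, s < m ∧ p s
  · exact (least_spec h).1.le
  · unfold least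
    rw [dif_neg h]
    exact Nat.zero_le _

@[fun_prop]
protected theorem CHF.least {p : α → ℕ → Prop} {m : α → ℕ} (hp : CHP (fun x : α × ℕ => p x.1 x.2))
    (hm : CHF m) : CHF (fun a => least (m a) (p a)) := by
  classical
  refine CHF.of_lt hm (fun _ => least_le _ _) ?_
  have h1 : CHP (fun x : α × ℕ => (∃ s, s < m x.1 ∧ p x.1 s) ∧
      ¬ ∃ s, s < x.2 + 1 ∧ p x.1 s) := by
    have hp' : CHP (fun y : (α × ℕ) × ℕ => p y.1.1 y.2) :=
      hp.comp (f := fun y : (α × ℕ) × ℕ => (y.1.1, y.2)) (by fun_prop)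
    exact (CHP.exists_lt (p := fun (x : α × ℕ) s => p x.1 s) hp' (by fun_prop)).and
      (CHP.exists_lt (p := fun (x : α × ℕ) s => p x.1 s) hp' (by fun_prop)).not
  refine h1.congr fun x => ?_
  unfold least
  split_ifs with h
  · rw [Nat.lt_find_iff]
    constructor
    · rintro ⟨-, h2⟩ s hs h3
      exact h2 ⟨s, by omega, h3.2⟩
    · intro h2
      refine ⟨h, ?_⟩
      rintro ⟨s, hs, h3⟩
      obtain ⟨s', hs', h4⟩ := h
      by_cases h5 : s' ≤ x.2
      · exact h2 s' h5 ⟨hs', h4⟩
      · exact h2 s (by omega) ⟨by omega, h3⟩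
  · simp [h]

@[fun_prop]
protected theorem CHP.prime {f : α → ℕ} (hf : CHF f) : CHP (fun a => (f a).Prime) := by
  have h1 : CHP (fun a => 2 ≤ f a ∧ ¬ ∃ s, s < f a ∧ (s ∣ f a ∧ s ≠ 1)) := by fun_prop
  refine h1.congr fun a => ?_
  rw [Nat.prime_def_lt]
  refine and_congr_right fun _ => ?_
  push Not
  rfl

/-! ### Arithmetic modulo a prime -/

/-- Modular exponentiation. -/
def powMod (b e p : ℕ) : ℕ := b ^ e % (p - 1 + 1)

@[fun_prop]
protected theorem CHF.powMod' {f g m : α → ℕ} (hf : CHF f) (hg : CHF g) (hm : CHF m) :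
    CHF (fun a => powMod (f a) (g a) (m a)) := CHF.powMod hf hg (by fun_prop)

theorem powMod_eq {p : ℕ} (hp : 0 < p) (b e : ℕ) : powMod b e p = b ^ e % p := by
  unfold powMod
  rw [Nat.sub_add_cancel hp]

theorem cast_powMod {p : ℕ} (hp : 0 < p) (b e : ℕ) :
    ((powMod b e p : ℕ) : ZMod p) = (b : ZMod p) ^ e := by
  rw [powMod_eq hp, ZMod.natCast_mod, Nat.cast_pow]

theorem exists_generator {p : ℕ} (hp : p.Prime) :
    ∃ g, g < p ∧ ∀ v, v < p → (v = 0 ∨ ∃ e, e < p ∧ powMod g e p = v) := by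
  have := Fact.mk hp
  obtain ⟨g, hg⟩ := IsCyclic.exists_generator (α := (ZMod p)ˣ)
  refine ⟨(g : ZMod p).val, ZMod.val_lt _, fun v hv => ?_⟩
  by_cases h0 : v = 0
  · exact Or.inl h0
  right
  have h1 : (v : ZMod p) ≠ 0 := by
    rw [Ne, ZMod.natCast_eq_zero_iff]
    exact Nat.not_dvd_of_pos_of_lt (Nat.pos_of_ne_zero h0) hv
  obtain ⟨e, he, he'⟩ := Finset.mem_image.1
    (mem_zpowers_iff_mem_range_orderOf.1 (hg (Units.mk0 _ h1)))
  have h2 : orderOf g ≤ p - 1 := by
    have := orderOf_le_card_univ (x := g)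
    rwa [ZMod.card_units] at this
  refine ⟨e, by have := mem_range.1 he; omega, ?_⟩
  have h3 : ((powMod (g : ZMod p).val e p : ℕ) : ZMod p) = v := by
    rw [cast_powMod hp.pos, ZMod.natCast_zmod_val, ← Units.val_pow_eq_pow_val, he']
    rfl
  rw [ZMod.natCast_eq_natCast_iff', powMod_eq hp.pos, Nat.mod_mod, Nat.mod_eq_of_lt hv] at h3
  rw [powMod_eq hp.pos, h3]

/-- Exponentially long products modulo a prime. -/
protected theorem CHF.exists_prod_mod {f : α → ℕ → ℕ} {m p : α → ℕ}
    (hf : CHF (fun x : α × ℕ => f x.1 x.2)) (hm : CHF m) (hp : CHF p) :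
    ∃ g : α → ℕ, CHF g ∧ ∀ a, (p a).Prime →
      ((g a : ℕ) : ZMod (p a)) = ∏ s ∈ range (m a), (f a s : ZMod (p a)) := by
  classical
  let gen : α → ℕ := fun a => least (p a) fun g =>
    ¬ ∃ v, v < p a ∧ ¬ (v = 0 ∨ ∃ e, e < p a ∧ powMod g e (p a) = v)
  have hgen : CHF gen := by
    simp only [gen]
    fun_prop
  let dl : α → ℕ → ℕ := fun a s => least (p a) fun e =>
    powMod (gen a) e (p a) = f a s % p a
  have hf' : CHF (fun y : (α × ℕ) × ℕ => f y.1.1 y.1.2) := hf.comp (by fun_prop)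
  have hdl : CHF (fun x : α × ℕ => dl x.1 x.2) := by
    simp only [dl]
    fun_prop
  refine ⟨fun a => if ∃ s, s < m a ∧ f a s % p a = 0 then 0 else
    powMod (gen a) (∑ s ∈ range (m a), dl a s) (p a), by fun_prop, fun a hpa => ?_⟩
  dsimp only
  split_ifs with h
  · obtain ⟨s, hs, h⟩ := h
    rw [prod_eq_zero (mem_range.2 hs), Nat.cast_zero]
    rw [← ZMod.natCast_mod, h, Nat.cast_zero]
  · rw [cast_powMod hpa.pos, ← prod_pow_eq_pow_sum]
    refine prod_congr rfl fun s hs => ?_
    have h1 : f a s % p a ≠ 0 := fun e => h ⟨s, mem_range.1 hs, e⟩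
    have h2 : ¬ ∃ v, v < p a ∧ ¬ (v = 0 ∨ ∃ e, e < p a ∧ powMod (gen a) e (p a) = v) := by
      refine (least_spec (m := p a) (p := fun g =>
        ¬ ∃ v, v < p a ∧ ¬ (v = 0 ∨ ∃ e, e < p a ∧ powMod g e (p a) = v)) ?_).2
      obtain ⟨g, hg, hg'⟩ := exists_generator hpa
      exact ⟨g, hg, fun ⟨v, hv, hv'⟩ => hv' (hg' v hv)⟩
    have h3 : ∃ e, e < p a ∧ powMod (gen a) e (p a) = f a s % p a := by
      by_contra h4
      exact h2 ⟨_, Nat.mod_lt _ hpa.pos, fun h5 => h5.elim h1 h4⟩
    have h4 : powMod (gen a) (dl a s) (p a) = f a s % p a := (least_spec h3).2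
    rw [← cast_powMod hpa.pos, h4, ZMod.natCast_mod]

/-! ### Digit vectors -/

/-- The list of the first `k` digits of `s` in base `B`. -/
def digs (B k s : ℕ) : List ℕ := (List.range k).map fun i => s / B ^ min i k % B

@[fun_prop]
protected theorem CHF.digs {B k s : α → ℕ} (hB : CHF B) (hk : CHF k) (hkb : PBd k) (hs : CHF s) :
    CHF (fun a => digs (B a) (k a) (s a)) := by
  unfold digs
  fun_prop

theorem length_digs (B k s : ℕ) : (digs B k s).length = k := by simp [digs]

theorem getD_digs (B k s : ℕ) {i : ℕ} (hi : i < k) : (digs B k s).getD i 0 = s / B ^ i % B := by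
  simp [digs, List.getD_eq_getElem?_getD, hi, min_eq_left hi.le]

theorem sum_digs {M : Type*} [AddCommMonoid M] (B k : ℕ) (G : (Fin k → ℕ) → M) :
    ∑ s ∈ range (B ^ k), G (fun i => (digs B k s).getD i 0) =
      ∑ x : Fin k → Fin B, G (fun i => x i) := by
  rw [sum_range, ← finFunctionFinEquiv.symm.sum_comp]
  refine sum_congr rfl fun s _ => ?_
  congr 1
  funext i
  rw [getD_digs _ _ _ i.2, finFunctionFinEquiv_symm_apply_val]

theorem exists_digs {B k : ℕ} {l : List ℕ} (hl : l.length = k) (hB : ∀ x ∈ l, x < B) :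
    ∃ s, s < B ^ k ∧ digs B k s = l := by
  subst hl
  let x : Fin l.length → Fin B := fun i => ⟨l[i], hB _ (List.getElem_mem _)⟩
  refine ⟨finFunctionFinEquiv x, (finFunctionFinEquiv x).2, ?_⟩
  refine List.ext_getElem (length_digs _ _ _) fun i h1 h2 => ?_
  have h3 := getD_digs B l.length (finFunctionFinEquiv x) h2
  rw [List.getD_eq_getElem _ _ h1] at h3
  rw [h3]
  have h4 := finFunctionFinEquiv_symm_apply_val (finFunctionFinEquiv x) ⟨i, h2⟩
  rw [Equiv.symm_apply_apply] at h4
  exact h4.symm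

theorem mem_digs_lt {B k s x : ℕ} (hB : 0 < B) (hx : x ∈ digs B k s) : x < B := by
  obtain ⟨i, -, rfl⟩ := List.mem_map.1 hx
  exact Nat.mod_lt _ hB

/-- Existential quantification over lists of polynomial length with bounded entries. -/
protected theorem CHP.exists_list {p : α → List ℕ → Prop} {B k : α → ℕ}
    (hp : CHP (fun x : α × List ℕ => p x.1 x.2)) (hB : CHF B) (hk : CHF k) (hkb : PBd k) :
    CHP (fun a => ∃ l : List ℕ, l.length = k a ∧ (∀ x ∈ l, x < B a) ∧ p a l) := by
  have h1 : CHP (fun a => ∃ s, s < B a ^ k a ∧ p a (digs (B a) (k a) s)) :=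
    CHP.exists_lt (p := fun a s => p a (digs (B a) (k a) s))
      (hp.comp (f := fun x : α × ℕ => (x.1, digs (B x.1) (k x.1) x.2)) (by fun_prop))
      (by fun_prop)
  refine h1.congr fun a => ⟨?_, ?_⟩
  · rintro ⟨s, hs, h⟩
    refine ⟨_, length_digs _ _ _, fun x hx => ?_, h⟩
    rcases Nat.eq_zero_or_pos (B a) with h0 | h0
    · rcases Nat.eq_zero_or_pos (k a) with h2 | h2
      · simp [digs, h2] at hx
      · rw [h0, zero_pow (by omega)] at hs
        omega
    · exact mem_digs_lt h0 hx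
  · rintro ⟨l, h2, h3, h4⟩
    obtain ⟨s, hs, rfl⟩ := exists_digs h2 h3
    exact ⟨s, hs, h4⟩

end Vale.Agent.P337
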