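import Vale.Agent.P337.CH.Coeff
import Vale.Agent.P337.DetSum
import Mathlib.Algebra.MvPolynomial.PDeriv
import Mathlib.RingTheory.Polynomial.Basic

/-!
Families of elements of (iterated) polynomial rings over the integers whose values at integer
points are `MC` and whose degrees are exponentially bounded (`MR`).
-/

namespace Vale.Agent.P337

open Vale.Agent.Lib.PolyTime Finset

/-- Rings with evaluation maps to the integers (indexed by points `P`) and a degree bound. -/
class PRing (P : outParam Type) (R : Type) [CommRing R] where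
  /-- evaluation at a point -/
  ev : P → R →+* ℤ
  /-- degree bound -/
  dg : ℕ → R → Prop
  dg_mono : ∀ {d d' : ℕ} {x : R}, d ≤ d' → dg d x → dg d' x
  dg_intCast : ∀ z : ℤ, dg 0 (z : R)
  dg_add : ∀ {d : ℕ} {x y : R}, dg d x → dg d y → dg d (x + y)
  dg_mul : ∀ {d d' : ℕ} {x y : R}, dg d x → dg d' y → dg (d + d') (x * y)

namespace PRing

variable {P R : Type} [CommRing R] [PRing P R]

theorem dg_intCast' (d : ℕ) (z : ℤ) : dg d (z : R) := dg_mono (Nat.zero_le d) (dg_intCast z)

theorem dg_zero (d : ℕ) : dg d (0 : R) := by simpa using dg_intCast' (R := R) d 0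

theorem dg_one (d : ℕ) : dg d (1 : R) := by simpa using dg_intCast' (R := R) d 1

theorem dg_sum {ι : Type*} {d : ℕ} (s : Finset ι) {f : ι → R} (h : ∀ i ∈ s, dg d (f i)) :
    dg d (∑ i ∈ s, f i) :=
  Finset.sum_induction f (dg d) (fun _ _ => dg_add) (dg_zero d) h

theorem dg_prod {ι : Type*} {d : ℕ} (s : Finset ι) {f : ι → R} (h : ∀ i ∈ s, dg d (f i)) :
    dg (s.card * d) (∏ i ∈ s, f i) := by
  classical
  induction s using Finset.induction_on with
  | empty => simpa using dg_one (R := R) 0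
  | insert i s hi ih =>
    rw [prod_insert hi, card_insert_of_notMem hi, Nat.succ_mul, add_comm]
    exact dg_mul (h i (mem_insert_self _ _)) (ih fun j hj => h j (mem_insert_of_mem hj))

theorem dg_pow {d : ℕ} {x : R} (h : dg d x) (k : ℕ) : dg (k * d) (x ^ k) := by
  simpa using dg_prod (range k) (f := fun _ => x) fun _ _ => h

end PRing

instance : PRing Unit ℤ where
  ev _ := RingHom.id ℤ
  dg _ _ := True
  dg_mono _ _ := trivial
  dg_intCast _ := trivial
  dg_add _ _ := trivial
  dg_mul _ _ := trivial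

noncomputable instance {P R : Type} [CommRing R] [PRing P R] : PRing (ℕ × P) (Polynomial R) where
  ev x := Polynomial.eval₂RingHom (PRing.ev x.2) (x.1 : ℤ)
  dg d F := F.natDegree ≤ d ∧ ∀ k, PRing.dg d (F.coeff k)
  dg_mono h h' := ⟨h'.1.trans h, fun k => PRing.dg_mono h (h'.2 k)⟩
  dg_intCast z := by
    refine ⟨by simp, fun k => ?_⟩
    rw [← Polynomial.C_eq_intCast, Polynomial.coeff_C]
    split_ifs
    · exact PRing.dg_intCast z
    · exact PRing.dg_zero 0
  dg_add h h' := ⟨Polynomial.natDegree_add_le_of_degree_le h.1 h'.1, fun k => by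
    rw [Polynomial.coeff_add]
    exact PRing.dg_add (h.2 k) (h'.2 k)⟩
  dg_mul h h' := ⟨Polynomial.natDegree_mul_le.trans (add_le_add h.1 h'.1), fun k => by
    rw [Polynomial.coeff_mul]
    exact PRing.dg_sum _ fun _ _ => PRing.dg_mul (h.2 _) (h'.2 _)⟩

noncomputable instance {P R : Type} [CommRing R] [PRing P R] {n : ℕ} :
    PRing (List ℕ × P) (MvPolynomial (Fin n) R) where
  ev x := MvPolynomial.eval₂Hom (PRing.ev x.2) fun i => ((x.1.getD i 0 : ℕ) : ℤ)
  dg d F := F.totalDegree ≤ d ∧ ∀ k, PRing.dg d (F.coeff k)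
  dg_mono h h' := ⟨h'.1.trans h, fun k => PRing.dg_mono h (h'.2 k)⟩
  dg_intCast z := by
    have e : ((z : ℤ) : MvPolynomial (Fin n) R) = MvPolynomial.C (z : R) := by simp
    rw [e]
    refine ⟨(MvPolynomial.totalDegree_C _).le, fun k => ?_⟩
    rw [MvPolynomial.coeff_C]
    split_ifs
    · exact PRing.dg_intCast z
    · exact PRing.dg_zero 0
  dg_add h h' := ⟨(MvPolynomial.totalDegree_add _ _).trans (max_le h.1 h'.1), fun k => by
    rw [MvPolynomial.coeff_add]
    exact PRing.dg_add (h.2 k) (h'.2 k)⟩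
  dg_mul h h' := ⟨(MvPolynomial.totalDegree_mul _ _).trans (add_le_add h.1 h'.1), fun k => by
    rw [MvPolynomial.coeff_mul]
    exact PRing.dg_sum _ fun _ _ => PRing.dg_mul (h.2 _) (h'.2 _)⟩

variable {α α' β β' : Type*} [Enc α] [Enc α'] [Enc β] [Enc β'] {P : Type} [Enc P]
  {R : α → Type} [∀ a, CommRing (R a)] [∀ a, PRing P (R a)]

/-- On the domain `D`, the values of `F a b` at all points are `MC` and the degree of `F a b` is
bounded by a `CHF` function of `a`. -/
structure MR (D : α → β → Prop) (F : (a : α) → β → R a) : Prop where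
  ev : MC (fun a (x : β × P) => D a x.1) (fun a x => PRing.ev x.2 (F a x.1))
  dg : ∃ M : α → ℕ, CHF M ∧ ∀ a b, D a b → PRing.dg (M a) (F a b)

variable {D D' : α → β → Prop} {F G : (a : α) → β → R a}

protected theorem MR.congr (hF : MR D F) (h : ∀ a b, D' a b → D a b ∧ F a b = G a b) :
    MR D' G := by
  obtain ⟨h1, M, hM, h2⟩ := hF
  refine ⟨h1.congr fun a x hx => ⟨(h a _ hx).1, by rw [(h a _ hx).2]⟩, M, hM, fun a b hab => ?_⟩
  rw [← (h a b hab).2]
  exact h2 a b (h a b hab).1

protected theorem MR.mono (hF : MR D F) (h : ∀ a b, D' a b → D a b) : MR D' F :=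
  hF.congr fun a b hab => ⟨h a b hab, rfl⟩

protected theorem MR.congr' (hF : MR D F) (h : ∀ a b, D a b → F a b = G a b) : MR D G :=
  hF.congr fun a b hab => ⟨hab, h a b hab⟩

/-- Reindexing, changing the instance. -/
protected theorem MR.comp (hF : MR D F) {u : α' → α} {v : α' → β' → β} (hu : CHF u)
    (hv : CHF (fun x : α' × β' => v x.1 x.2)) :
    MR (R := fun a => R (u a)) (fun a b => D (u a) (v a b)) (fun a b => F (u a) (v a b)) := by
  obtain ⟨h1, M, hM, h2⟩ := hF
  have hv' : CHF (fun x : α' × β' × P => v x.1 x.2.1) :=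
    hv.comp (f := fun x : α' × β' × P => (x.1, x.2.1)) (by fun_prop)
  exact ⟨h1.comp (v := fun a (x : β' × P) => (v a x.1, x.2)) hu (by fun_prop),
    fun a => M (u a), by fun_prop, fun a b hab => h2 _ _ hab⟩

/-- Reindexing of the free parameters. -/
protected theorem MR.reindex (hF : MR D F) {E : α → β' → Prop} (v : α → β' → β)
    (hv : CHF (fun x : α × β' => v x.1 x.2)) (h : ∀ a b, E a b → D a (v a b)) :
    MR E (fun a b => F a (v a b)) :=
  (hF.comp (u := fun a => a) CHF.id hv).mono h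

/-- Weakening: a new parameter which is not used. -/
protected theorem MR.weak (hF : MR D F) {E : α → β × β' → Prop} (h : ∀ a x, E a x → D a x.1) :
    MR E (fun a x => F a x.1) :=
  hF.reindex (fun _ (x : β × β') => x.1) (by fun_prop) h

protected theorem MR.intCast {f : α → β → ℤ} (hf : MC D f) :
    MR D (fun a b => ((f a b : ℤ) : R a)) :=
  ⟨(hf.comp (u := fun a => a) (v := fun _ (x : β × P) => x.1) CHF.id (by fun_prop)).congr'
    fun a x _ => by simp, fun _ => 0, by fun_prop, fun _ _ _ => PRing.dg_intCast _⟩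

protected theorem MR.natCast {f : α → β → ℕ} (hf : MC D (fun a b => (f a b : ℤ))) :
    MR D (fun a b => ((f a b : ℕ) : R a)) :=
  (MR.intCast hf).congr' fun _ _ _ => Int.cast_natCast _

protected theorem MR.natCast' {f : α → β → ℕ} (hf : CHF (fun x : α × β => f x.1 x.2)) :
    MR D (fun a b => ((f a b : ℕ) : R a)) := MR.natCast (MC.natCast hf)

protected theorem MR.zero : MR D (fun a _ => (0 : R a)) :=
  (MR.intCast (MC.const 0)).congr' fun _ _ _ => Int.cast_zero

protected theorem MR.one : MR D (fun a _ => (1 : R a)) :=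
  (MR.intCast (MC.const 1)).congr' fun _ _ _ => Int.cast_one

protected theorem MR.neg_one_pow {k : α → β → ℕ} (hk : CHF (fun x : α × β => k x.1 x.2)) :
    MR D (fun a b => (-1 : R a) ^ k a b) :=
  (MR.intCast ((MC.const (-1)).pow hk)).congr' fun _ _ _ => by simp

protected theorem MR.two_pow {k : α → β → ℕ} (hk : CHF (fun x : α × β => k x.1 x.2)) :
    MR D (fun a b => (2 : R a) ^ k a b) :=
  (MR.intCast ((MC.const 2).pow hk)).congr' fun _ _ _ => by simp

protected theorem MR.add (hF : MR D F) (hG : MR D G) : MR D (fun a b => F a b + G a b) := by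
  obtain ⟨h1, M, hM, h2⟩ := hF
  obtain ⟨h3, M', hM', h4⟩ := hG
  exact ⟨(h1.add h3).congr' fun _ _ _ => (map_add _ _ _).symm, fun a => M a + M' a, by fun_prop,
    fun a b hab => PRing.dg_add (PRing.dg_mono (Nat.le_add_right _ _) (h2 a b hab))
      (PRing.dg_mono (Nat.le_add_left _ _) (h4 a b hab))⟩

protected theorem MR.mul (hF : MR D F) (hG : MR D G) : MR D (fun a b => F a b * G a b) := by
  obtain ⟨h1, M, hM, h2⟩ := hF
  obtain ⟨h3, M', hM', h4⟩ := hG
  exact ⟨(h1.mul h3).congr' fun _ _ _ => (map_mul _ _ _).symm, fun a => M a + M' a, by fun_prop,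
    fun a b hab => PRing.dg_mul (h2 a b hab) (h4 a b hab)⟩

protected theorem MR.neg (hF : MR D F) : MR D (fun a b => - F a b) :=
  ((MR.intCast (MC.const (-1))).mul hF).congr' fun _ _ _ => by simp

protected theorem MR.sub (hF : MR D F) (hG : MR D G) : MR D (fun a b => F a b - G a b) :=
  (hF.add hG.neg).congr' fun _ _ _ => (sub_eq_add_neg _ _).symm

protected theorem MR.pow (hF : MR D F) {k : α → β → ℕ} (hk : CHF (fun x : α × β => k x.1 x.2))
    (hb : EB D k) : MR D (fun a b => F a b ^ k a b) := by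
  obtain ⟨h1, M, hM, h2⟩ := hF
  obtain ⟨K, hK, hK'⟩ := hb
  exact ⟨(h1.pow (k := fun a (x : β × P) => k a x.1)
    (hk.comp (f := fun x : α × β × P => (x.1, x.2.1)) (by fun_prop))).congr'
      fun _ _ _ => (map_pow _ _ _).symm, fun a => K a * M a, by fun_prop, fun a b hab =>
    PRing.dg_mono (Nat.mul_le_mul_right _ (hK' a b hab)) (PRing.dg_pow (h2 a b hab) _)⟩

/-- Power with an exponent depending on the instance only. -/
protected theorem MR.pow' (hF : MR D F) {k : α → ℕ} (hk : CHF k) :
    MR D (fun a b => F a b ^ k a) :=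
  hF.pow (k := fun a _ => k a) (by fun_prop) (EB.of_chf hk)

protected theorem MR.ite {q : α → β → Prop} {inst : ∀ a b, Decidable (q a b)}
    (hq : CHP (fun x : α × β => q x.1 x.2)) (hF : MR (fun a b => D a b ∧ q a b) F)
    (hG : MR (fun a b => D a b ∧ ¬ q a b) G) :
    MR D (fun a b => @ite _ (q a b) (inst a b) (F a b) (G a b)) := by
  obtain ⟨h1, M, hM, h2⟩ := hF
  obtain ⟨h3, M', hM', h4⟩ := hG
  refine ⟨(MC.ite (q := fun a (x : β × P) => q a x.1) (inst := fun _ _ => inst _ _)
    (hq.comp (f := fun x : α × β × P => (x.1, x.2.1)) (by fun_prop)) h1 h3).congr'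
      fun _ _ _ => by split_ifs <;> rfl, fun a => M a + M' a, by fun_prop, fun a b hab => ?_⟩
  split_ifs with h
  · exact PRing.dg_mono (Nat.le_add_right _ _) (h2 a b ⟨hab, h⟩)
  · exact PRing.dg_mono (Nat.le_add_left _ _) (h4 a b ⟨hab, h⟩)

protected theorem MR.sum_range {m : α → β → ℕ} (hm : CHF (fun x : α × β => m x.1 x.2))
    {H : (a : α) → β → ℕ → R a}
    (hH : MR (fun a (x : β × ℕ) => D a x.1 ∧ x.2 < m a x.1) (fun a x => H a x.1 x.2)) :
    MR D (fun a b => ∑ s ∈ range (m a b), H a b s) := by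
  obtain ⟨h1, M, hM, h2⟩ := hH
  exact ⟨(MC.sum_range (m := fun a (x : β × P) => m a x.1)
    (hm.comp (f := fun x : α × β × P => (x.1, x.2.1)) (by fun_prop))
    (F := fun a x s => PRing.ev x.2 (H a x.1 s))
    (h1.comp (u := fun a => a) (v := fun _ (y : (β × P) × ℕ) => ((y.1.1, y.2), y.1.2)) CHF.id
      (by fun_prop))).congr' fun _ _ _ => (map_sum _ _ _).symm, M, hM, fun a b hab =>
    PRing.dg_sum _ fun s hs => h2 a (b, s) ⟨hab, mem_range.1 hs⟩⟩

protected theorem MR.prod_range {m : α → β → ℕ} (hm : CHF (fun x : α × β => m x.1 x.2))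
    (hb : EB D m) {H : (a : α) → β → ℕ → R a}
    (hH : MR (fun a (x : β × ℕ) => D a x.1 ∧ x.2 < m a x.1) (fun a x => H a x.1 x.2)) :
    MR D (fun a b => ∏ s ∈ range (m a b), H a b s) := by
  obtain ⟨h1, M, hM, h2⟩ := hH
  obtain ⟨K, hK, hK'⟩ := hb
  refine ⟨(MC.prod_range (m := fun a (x : β × P) => m a x.1)
    (hm.comp (f := fun x : α × β × P => (x.1, x.2.1)) (by fun_prop))
    (F := fun a x s => PRing.ev x.2 (H a x.1 s))
    (h1.comp (u := fun a => a) (v := fun _ (y : (β × P) × ℕ) => ((y.1.1, y.2), y.1.2)) CHF.id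
      (by fun_prop))).congr' fun _ _ _ => (map_prod _ _ _).symm, fun a => K a * M a,
    by fun_prop, fun a b hab => ?_⟩
  refine PRing.dg_mono ?_ (PRing.dg_prod _ fun s hs => h2 a (b, s) ⟨hab, mem_range.1 hs⟩)
  rw [card_range]
  exact Nat.mul_le_mul_right _ (hK' a b hab)

protected theorem MR.sum_fin {n : α → ℕ} (hn : CHF n) {H : (a : α) → β → Fin (n a) → R a}
    (H' : (a : α) → β → ℕ → R a)
    (hH : MR (fun a (x : β × ℕ) => D a x.1 ∧ x.2 < n a) (fun a x => H' a x.1 x.2))
    (h : ∀ a b, D a b → ∀ i, H a b i = H' a b i) : MR D (fun a b => ∑ i, H a b i) :=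
  (MR.sum_range (m := fun a _ => n a) (by fun_prop) hH).congr' fun a b hab => by
    rw [sum_range]
    exact sum_congr rfl fun i _ => (h a b hab i).symm

protected theorem MR.prod_fin {n : α → ℕ} (hn : CHF n) {H : (a : α) → β → Fin (n a) → R a}
    (H' : (a : α) → β → ℕ → R a)
    (hH : MR (fun a (x : β × ℕ) => D a x.1 ∧ x.2 < n a) (fun a x => H' a x.1 x.2))
    (h : ∀ a b, D a b → ∀ i, H a b i = H' a b i) : MR D (fun a b => ∏ i, H a b i) :=
  (MR.prod_range (m := fun a _ => n a) (by fun_prop) (EB.of_chf hn) hH).congr' fun a b hab => by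
    rw [prod_range]
    exact prod_congr rfl fun i _ => (h a b hab i).symm

/-- Over the integers `MR` is `MC`. -/
protected theorem MR.toMC {f : α → β → ℤ} (hf : MR (R := fun _ => ℤ) D f) : MC D f :=
  hf.ev.comp (u := fun a => a) (v := fun _ b => (b, ())) CHF.id (by fun_prop)

protected theorem MC.toMR {f : α → β → ℤ} (hf : MC D f) : MR (R := fun _ => ℤ) D f :=
  MR.intCast (R := fun _ => ℤ) hf

/-! ### Determinants -/

theorem sgnF_eq (n : ℕ) (l : List ℕ) : sgnF n (fun i => l.getD i 0) =
    ∏ i ∈ range n, ∏ j ∈ range n, if i < j then (if l.getD i 0 < l.getD j 0 then 1 else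
      if l.getD i 0 = l.getD j 0 then 0 else -1) else 1 := by
  simp only [sgnF, prod_range, Fin.lt_def]

protected theorem MR.det {n : α → ℕ} (hn : CHF n) (hnb : PBd n)
    {A : (a : α) → β → Matrix (Fin (n a)) (Fin (n a)) (R a)} (A' : (a : α) → β → ℕ → ℕ → R a)
    (hA : MR (fun a (x : β × ℕ × ℕ) => D a x.1 ∧ x.2.1 < n a ∧ x.2.2 < n a)
      (fun a x => A' a x.1 x.2.1 x.2.2))
    (h : ∀ a b, D a b → ∀ i j, A a b i j = A' a b i j) : MR D (fun a b => (A a b).det) := by
  have h1 : MR D (fun a b => ∑ s ∈ range (n a ^ n a),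
      ((∏ i ∈ range (n a), ∏ j ∈ range (n a), if i < j then
        (if (digs (n a) (n a) s).getD i 0 < (digs (n a) (n a) s).getD j 0 then 1 else
          if (digs (n a) (n a) s).getD i 0 = (digs (n a) (n a) s).getD j 0 then 0 else -1)
        else 1 : ℤ) : R a) * ∏ i ∈ range (n a), A' a b ((digs (n a) (n a) s).getD i 0) i) := by
    refine MR.sum_range (by fun_prop) (MR.mul (MR.intCast (MC.prod_range (by fun_prop)
      (MC.prod_range (by fun_prop) (MC.intCast (by fun_prop)))))
      (MR.prod_range (by fun_prop) (EB.of_chf hn) ?_))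
    refine hA.reindex (fun a (y : (β × ℕ) × ℕ) =>
      (y.1.1, (digs (n a) (n a) y.1.2).getD y.2 0, y.2)) (by fun_prop) fun a y hy =>
        ⟨hy.1.1, ?_, hy.2⟩
    rw [getD_digs _ _ _ hy.2]
    exact Nat.mod_lt _ (by have := hy.2; omega)
  refine h1.congr' fun a b hab => ?_
  rw [det_eq_sum]
  simp only [← sgnF_eq]
  simp only [prod_range]
  rw [sum_digs (n a) (n a) fun t => ((sgnF (n a) t : ℤ) : R a) * ∏ i : Fin (n a), A' a b (t i) i]
  simp only [h a b hab]

/-! ### Univariate polynomials -/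

protected theorem MR.polyC (hF : MR D F) :
    MR (R := fun a => Polynomial (R a)) D (fun a b => Polynomial.C (F a b)) := by
  obtain ⟨h1, M, hM, h2⟩ := hF
  refine ⟨(h1.comp (u := fun a => a) (v := fun _ (x : β × ℕ × P) => (x.1, x.2.2)) CHF.id
    (by fun_prop)).congr' fun a x _ => (Polynomial.eval₂_C _ _).symm, M, hM, fun a b hab =>
      ⟨by simp, fun k => ?_⟩⟩
  rw [Polynomial.coeff_C]
  split_ifs
  · exact h2 a b hab
  · exact PRing.dg_zero _

protected theorem MR.polyX :
    MR (R := fun a => Polynomial (R a)) D (fun _ _ => Polynomial.X) := by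
  refine ⟨(MC.natCast (h := fun _ (x : β × ℕ × P) => x.2.1) (by fun_prop)).congr'
    fun a x _ => (Polynomial.eval₂_X _ _).symm, fun _ => 1, by fun_prop, fun a b _ =>
      ⟨Polynomial.natDegree_X_le, fun k => ?_⟩⟩
  rw [Polynomial.coeff_X]
  split_ifs
  · exact PRing.dg_one _
  · exact PRing.dg_zero _

protected theorem MR.polyCoeff {H : (a : α) → β → Polynomial (R a)}
    (hH : MR (R := fun a => Polynomial (R a)) D H) {k : α → β → ℕ}
    (hk : CHF (fun x : α × β => k x.1 x.2)) : MR D (fun a b => (H a b).coeff (k a b)) := by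
  obtain ⟨h1, M, hM, h2⟩ := hH
  refine ⟨(MC.coeff (F := fun a (x : β × P) => (H a x.1).map (PRing.ev x.2))
    ((h1.comp (u := fun a => a) (v := fun _ (y : (β × P) × ℕ) => (y.1.1, y.2, y.1.2)) CHF.id
      (by fun_prop)).congr' fun a y _ => (Polynomial.eval_map _ _).symm)
    ⟨M, hM, fun a x hx => Polynomial.natDegree_map_le.trans (h2 a _ hx).1⟩
    (k := fun a x => k a x.1) (hk.comp (f := fun x : α × β × P => (x.1, x.2.1))
      (by fun_prop))).congr' fun a x _ => Polynomial.coeff_map _ _, M, hM,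
    fun a b hab => (h2 a b hab).2 _⟩

protected theorem MR.natDegree {H : (a : α) → β → Polynomial (R a)}
    (hH : MR (R := fun a => Polynomial (R a)) D H) : EB D (fun a b => (H a b).natDegree) := by
  obtain ⟨-, M, hM, h2⟩ := hH
  exact ⟨M, hM, fun a b hab => (h2 a b hab).1⟩

/-! ### Multivariate polynomials -/

section Mv

variable {n : α → ℕ} {H : (a : α) → β → MvPolynomial (Fin (n a)) (R a)}

protected theorem MR.mvC (hF : MR D F) :
    MR (R := fun a => MvPolynomial (Fin (n a)) (R a)) D (fun a b => MvPolynomial.C (F a b)) := by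
  obtain ⟨h1, M, hM, h2⟩ := hF
  refine ⟨(h1.comp (u := fun a => a) (v := fun _ (x : β × List ℕ × P) => (x.1, x.2.2)) CHF.id
    (by fun_prop)).congr' fun a x _ => (MvPolynomial.eval₂Hom_C _ _ _).symm, M, hM,
      fun a b hab => ⟨(MvPolynomial.totalDegree_C _).le.trans (Nat.zero_le _), fun k => ?_⟩⟩
  rw [MvPolynomial.coeff_C]
  split_ifs
  · exact h2 a b hab
  · exact PRing.dg_zero _

/-- Variables: `H a b` is the variable with number `i a b`. -/
protected theorem MR.mvX (i : α → β → ℕ) (hi : CHF (fun x : α × β => i x.1 x.2))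
    (h : ∀ a b, D a b → ∃ j : Fin (n a), (j : ℕ) = i a b ∧ H a b = MvPolynomial.X j) :
    MR (R := fun a => MvPolynomial (Fin (n a)) (R a)) D H := by
  have hi' : CHF (fun x : α × β × List ℕ × P => i x.1 x.2.1) :=
    hi.comp (f := fun x : α × β × List ℕ × P => (x.1, x.2.1)) (by fun_prop)
  refine ⟨(MC.natCast (h := fun a (x : β × List ℕ × P) => x.2.1.getD (i a x.1) 0)
    (by fun_prop)).congr' fun a x hx => ?_, fun _ => 1, by fun_prop, fun a b hab => ?_⟩
  · obtain ⟨j, h1, h2⟩ := h a _ hx
    rw [h2, ← h1]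
    exact (MvPolynomial.eval₂Hom_X' (PRing.ev x.2.2) (fun k : Fin (n a) => ((x.2.1.getD k 0 : ℕ) : ℤ))
      j).symm
  · obtain ⟨j, -, h2⟩ := h a b hab
    rw [h2]
    refine ⟨?_, fun k => ?_⟩
    · rw [MvPolynomial.X]
      exact (MvPolynomial.totalDegree_monomial_le _ _).trans (by simp)
    · rw [MvPolynomial.coeff_X]
      split_ifs
      · exact PRing.dg_one _
      · exact PRing.dg_zero _

protected theorem MR.totalDegree (hH : MR (R := fun a => MvPolynomial (Fin (n a)) (R a)) D H) :
    EB D (fun a b => (H a b).totalDegree) := by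
  obtain ⟨-, M, hM, h2⟩ := hH
  exact ⟨M, hM, fun a b hab => (h2 a b hab).1⟩

protected theorem MR.mvCoeff (hn : CHF n) (hnb : PBd n)
    (hH : MR (R := fun a => MvPolynomial (Fin (n a)) (R a)) D H)
    {d : (a : α) → β → (Fin (n a) →₀ ℕ)} (dd : α → β → ℕ → ℕ)
    (hdd : CHF (fun x : (α × β) × ℕ => dd x.1.1 x.1.2 x.2))
    (h : ∀ a b, D a b → ∀ i, d a b i = dd a b i) :
    MR D (fun a b => MvPolynomial.coeff (d a b) (H a b)) := by
  obtain ⟨h1, M, hM, h2⟩ := hH
  refine ⟨(MC.mvcoeff hn hnb (F := fun a (x : β × P) => MvPolynomial.map (PRing.ev x.2) (H a x.1))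
    ((h1.comp (u := fun a => a) (v := fun _ (y : (β × P) × List ℕ) => (y.1.1, y.2, y.1.2)) CHF.id
      (by fun_prop)).congr' fun a y _ => (MvPolynomial.eval_map _ _ _).symm)
    ⟨M, hM, fun a x hx => (totalDegree_map_le' _ _).trans (h2 a _ hx).1⟩
    (d := fun a x => d a x.1) (dd := fun a x i => dd a x.1 i)
    (hdd.comp (f := fun x : (α × β × P) × ℕ => ((x.1.1, x.1.2.1), x.2)) (by fun_prop))
    (fun a x hx => h a _ hx)).congr' fun a x _ => MvPolynomial.coeff_map _ _ _, M, hM,
    fun a b hab => (h2 a b hab).2 _⟩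

theorem coeff_one_aeval_shift {σ K : Type*} [CommRing K] [DecidableEq σ] (t : σ → K) (j : σ)
    (F : MvPolynomial σ K) :
    (MvPolynomial.aeval (fun i => Polynomial.C (t i) + if i = j then Polynomial.X else 0) F :
      Polynomial K).coeff 1 = MvPolynomial.eval t (MvPolynomial.pderiv j F) := by
  have h0 : ∀ G : MvPolynomial σ K, (MvPolynomial.aeval
      (fun i => Polynomial.C (t i) + if i = j then Polynomial.X else 0) G :
        Polynomial K).coeff 0 = MvPolynomial.eval t G := by
    intro G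
    induction G using MvPolynomial.induction_on with
    | C a => simp
    | add p q hp hq => simp [hp, hq]
    | mul_X p i hp =>
      rw [map_mul, map_mul, Polynomial.mul_coeff_zero, hp]
      by_cases h : i = j <;> simp [h]
  induction F using MvPolynomial.induction_on with
  | C a => simp
  | add p q hp hq => simp [hp, hq]
  | mul_X p i hp =>
    rw [map_mul, MvPolynomial.aeval_X, Derivation.leibniz, smul_eq_mul, smul_eq_mul, map_add,
      map_mul, map_mul, ← hp, ← h0, MvPolynomial.pderiv_X, MvPolynomial.eval_X]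
    by_cases h : i = j
    · subst h
      rw [if_pos rfl, mul_add, Polynomial.coeff_add, Polynomial.coeff_mul_C,
        Polynomial.coeff_mul_X]
      simp [mul_comm, add_comm]
    · simp [h, mul_comm]

theorem eval_aeval_shift {σ K : Type*} [CommRing K] [DecidableEq σ] (t : σ → K) (j : σ) (s : K)
    (F : MvPolynomial σ K) :
    (MvPolynomial.aeval (fun i => Polynomial.C (t i) + if i = j then Polynomial.X else 0) F :
      Polynomial K).eval s = MvPolynomial.eval (fun i => t i + if i = j then s else 0) F := by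
  induction F using MvPolynomial.induction_on with
  | C a => simp
  | add p q hp hq => simp [hp, hq]
  | mul_X p i hp =>
    rw [map_mul, map_mul, Polynomial.eval_mul, hp]
    by_cases h : i = j <;> simp [h]

theorem totalDegree_pderiv_le' {σ K : Type*} [CommRing K] (j : σ) (F : MvPolynomial σ K) :
    (MvPolynomial.pderiv j F).totalDegree ≤ F.totalDegree := by
  classical
  refine Finset.sup_le fun m hm => ?_
  rw [MvPolynomial.mem_support_iff, MvPolynomial.coeff_pderiv] at hm
  have h1 := MvPolynomial.le_totalDegree (MvPolynomial.mem_support_iff.2 (left_ne_zero_of_mul hm))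
  rw [Finsupp.sum_add_index' (fun _ => rfl) (fun _ _ _ => rfl)] at h1
  omega

/-- Derivatives: `H' a b` is the derivative of `H a b` by the variable with number `i a b`. -/
protected theorem MR.pderiv (hn : CHF n) (hnb : PBd n)
    (hH : MR (R := fun a => MvPolynomial (Fin (n a)) (R a)) D H)
    {H' : (a : α) → β → MvPolynomial (Fin (n a)) (R a)}
    (i : α → β → ℕ) (hi : CHF (fun x : α × β => i x.1 x.2))
    (h : ∀ a b, D a b → ∃ j : Fin (n a), (j : ℕ) = i a b ∧
      H' a b = MvPolynomial.pderiv j (H a b)) :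
    MR (R := fun a => MvPolynomial (Fin (n a)) (R a)) D H' := by
  obtain ⟨h1, M, hM, h2⟩ := hH
  have hi' : CHF (fun y : α × (β × List ℕ × P) × ℕ => i y.1 y.2.1.1) :=
    hi.comp (f := fun y : α × (β × List ℕ × P) × ℕ => (y.1, y.2.1.1)) (by fun_prop)
  refine ⟨(MC.coeff (F := fun a (x : β × List ℕ × P) => MvPolynomial.aeval
      (fun k : Fin (n a) => Polynomial.C ((x.2.1.getD k 0 : ℕ) : ℤ) +
        if (k : ℕ) = i a x.1 then Polynomial.X else 0) (MvPolynomial.map (PRing.ev x.2.2) (H a x.1)))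
    ((h1.comp (u := fun a => a) (v := fun a (y : (β × List ℕ × P) × ℕ) => (y.1.1,
      (List.range (n a)).map fun k => y.1.2.1.getD k 0 + if k = i a y.1.1 then y.2 else 0,
        y.1.2.2)) CHF.id (by fun_prop)).congr' fun a y hy => ?_)
    ⟨M, hM, fun a x hx => ?_⟩ (k := fun _ _ => 1) (by fun_prop)).congr' fun a x hx => ?_,
    M, hM, fun a b hab => ?_⟩
  · obtain ⟨j, h3, -⟩ := h a _ hy
    simp only [← h3, Fin.val_inj]
    rw [eval_aeval_shift, MvPolynomial.eval_map]
    change MvPolynomial.eval₂ _ _ _ = _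
    congr 1
    funext k
    simp [List.getD_eq_getElem?_getD, Fin.val_inj]
  · refine (MvPolynomial.aeval_natDegree_le _ ((totalDegree_map_le' _ _).trans (h2 a _ hx).1) _
      (n := 1) fun k => ?_).trans (mul_one _).le
    refine Polynomial.natDegree_add_le_of_degree_le (by simp) ?_
    split_ifs
    · exact Polynomial.natDegree_X_le
    · simp
  · obtain ⟨j, h3, h4⟩ := h a _ hx
    simp only [← h3, Fin.val_inj]
    rw [coeff_one_aeval_shift, MvPolynomial.pderiv_map, MvPolynomial.eval_map, h4]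
    rfl
  · obtain ⟨j, -, h4⟩ := h a b hab
    rw [h4]
    refine ⟨(totalDegree_pderiv_le' _ _).trans (h2 a b hab).1, fun k => ?_⟩
    rw [MvPolynomial.coeff_pderiv]
    have h5 := PRing.dg_mul ((h2 a b hab).2 (k + Finsupp.single j 1))
      (PRing.dg_intCast (R := R a) ((k j : ℤ) + 1))
    simpa using h5

end Mv

end Vale.Agent.P337
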